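import Mathlib.LinearAlgebra.Lagrange
import Mathlib.LinearAlgebra.Matrix.Polynomial
import Mathlib.LinearAlgebra.Dual.Lemmas
import Mathlib.Tactic

/-!
# Polynomials over an infinite field with values in a plane; polynomials with small values
-/

open Module Polynomial

set_option linter.unusedSectionVars false

namespace Vale.Agent.P011.H732D

section plane

variable {k Ω : Type} [Field k] [Infinite k] [Field Ω] [Algebra k Ω] {m : ℕ}

/-- A polynomial whose values on `k` lie in a subspace over `k` has its coefficients there. -/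
theorem coeff_mem (P : Polynomial Ω) (W : Submodule k Ω) (h : ∀ μ : k, P.eval (algebraMap k Ω μ) ∈ W)
    (l : ℕ) : P.coeff l ∈ W := by
  by_contra hcon
  obtain ⟨φ, hφ, hW⟩ := Submodule.exists_le_ker_of_notMem hcon
  let R : k[X] := ∑ i ∈ Finset.range (P.natDegree + 1), C (φ (P.coeff i)) * X ^ i
  have hR : ∀ μ : k, R.eval μ = φ (P.eval (algebraMap k Ω μ)) := by
    intro μ
    rw [eval_finsetSum, Polynomial.eval_eq_sum_range, map_sum]
    refine Finset.sum_congr rfl fun i _ => ?_
    rw [eval_mul, eval_C, eval_pow, eval_X, ← map_pow, mul_comm (P.coeff i), ← Algebra.smul_def,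
      map_smul, smul_eq_mul, mul_comm]
  have h0 : R = 0 := by
    apply Polynomial.funext
    intro μ
    rw [hR, eval_zero]
    exact hW (h μ)
  have h1 : R.coeff l = 0 := by rw [h0, coeff_zero]
  by_cases hl : l ≤ P.natDegree
  · have h2 : R.coeff l = φ (P.coeff l) := by
      rw [finsetSum_coeff]
      simp only [coeff_C_mul, coeff_X_pow]
      rw [Finset.sum_eq_single l]
      · rw [if_pos rfl, mul_one]
      · intro i _ hi
        rw [if_neg (Ne.symm hi), mul_zero]
      · intro hl'
        exact absurd (Finset.mem_range.mpr (Nat.lt_succ_of_le hl)) hl'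
    exact hφ (by rw [← h2, h1])
  · apply hcon
    rw [coeff_eq_zero_of_natDegree_lt (not_le.mp hl)]
    exact W.zero_mem

/-- The determinant of a pencil with values in a plane. -/
theorem exists_UV (w : Ω) (A0 A1 : Matrix (Fin m) (Fin m) Ω)
    (h : ∀ μ : k, ∃ p u : k, (A0 + algebraMap k Ω μ • A1).det =
      algebraMap k Ω p + algebraMap k Ω u * w) :
    ∃ U V : k[X], U.natDegree ≤ m ∧ V.natDegree ≤ m ∧
      (∀ μ : k, (A0 + algebraMap k Ω μ • A1).det =
        algebraMap k Ω (U.eval μ) + algebraMap k Ω (V.eval μ) * w) ∧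
      A1.det = algebraMap k Ω (U.coeff m) + algebraMap k Ω (V.coeff m) * w := by
  let W : Submodule k Ω := LinearMap.range
    ({ toFun := fun x : k × k => algebraMap k Ω x.1 + algebraMap k Ω x.2 * w
       map_add' := fun x y => by
        rw [Prod.fst_add, Prod.snd_add, map_add, map_add]; ring
       map_smul' := fun c x => by
        rw [Prod.smul_fst, Prod.smul_snd, smul_eq_mul, smul_eq_mul, map_mul, map_mul,
          RingHom.id_apply, Algebra.smul_def]
        ring } : k × k →ₗ[k] Ω)
  have hW : ∀ x, x ∈ W ↔ ∃ p u : k, x = algebraMap k Ω p + algebraMap k Ω u * w := by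
    intro x
    constructor
    · rintro ⟨⟨p, u⟩, rfl⟩
      exact ⟨p, u, rfl⟩
    · rintro ⟨p, u, rfl⟩
      exact ⟨(p, u), rfl⟩
  let P : Polynomial Ω := ((X : Polynomial Ω) • A1.map C + A0.map C).det
  have hPdeg : P.natDegree ≤ m := by
    have := Polynomial.natDegree_det_X_add_C_le A1 A0
    rwa [Fintype.card_fin] at this
  have hPe : ∀ z : Ω, P.eval z = (A0 + z • A1).det := by
    intro z
    have h1 : P.eval z = (Polynomial.evalRingHom z) P := rfl
    rw [h1, RingHom.map_det]
    congr 1
    ext i j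
    rw [RingHom.mapMatrix_apply, Matrix.map_apply, Matrix.add_apply, Matrix.add_apply,
      Matrix.smul_apply, Matrix.smul_apply, Matrix.map_apply, Matrix.map_apply, smul_eq_mul,
      smul_eq_mul, map_add, map_mul, coe_evalRingHom, eval_X, eval_C, eval_C, add_comm]
  have hPc : ∀ l, ∃ p u : k, P.coeff l = algebraMap k Ω p + algebraMap k Ω u * w := by
    intro l
    rw [← hW]
    refine coeff_mem P W (fun μ => ?_) l
    rw [hPe, hW]
    exact h μ
  choose p u hpu using hPc
  let U : k[X] := ∑ i ∈ Finset.range (m + 1), C (p i) * X ^ i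
  let V : k[X] := ∑ i ∈ Finset.range (m + 1), C (u i) * X ^ i
  have hdeg : ∀ q : ℕ → k, (∑ i ∈ Finset.range (m + 1), C (q i) * X ^ i : k[X]).natDegree ≤ m := by
    intro q
    refine natDegree_sum_le_of_forall_le _ _ fun i hi => ?_
    exact (natDegree_C_mul_X_pow_le _ _).trans (Nat.lt_succ_iff.mp (Finset.mem_range.mp hi))
  have hco : ∀ q : ℕ → k, (∑ i ∈ Finset.range (m + 1), C (q i) * X ^ i : k[X]).coeff m = q m := by
    intro q
    rw [finsetSum_coeff]
    simp only [coeff_C_mul, coeff_X_pow]
    rw [Finset.sum_eq_single m]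
    · rw [if_pos rfl, mul_one]
    · intro i _ hi
      rw [if_neg (Ne.symm hi), mul_zero]
    · intro hl'
      exact absurd (Finset.self_mem_range_succ m) hl'
  refine ⟨U, V, hdeg p, hdeg u, fun μ => ?_, ?_⟩
  · rw [← hPe, Polynomial.eval_eq_sum_range' (Nat.lt_succ_of_le hPdeg)]
    have e1 : U.eval μ = ∑ i ∈ Finset.range (m + 1), p i * μ ^ i := by
      rw [eval_finsetSum]
      refine Finset.sum_congr rfl fun i _ => ?_
      rw [eval_mul, eval_C, eval_pow, eval_X]
    have e2 : V.eval μ = ∑ i ∈ Finset.range (m + 1), u i * μ ^ i := by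
      rw [eval_finsetSum]
      refine Finset.sum_congr rfl fun i _ => ?_
      rw [eval_mul, eval_C, eval_pow, eval_X]
    rw [e1, e2, map_sum, map_sum, Finset.sum_mul, ← Finset.sum_add_distrib]
    refine Finset.sum_congr rfl fun i _ => ?_
    rw [hpu, map_mul, map_mul, map_pow]
    ring
  · have h2 : U.coeff m = p m := hco p
    have h3 : V.coeff m = u m := hco u
    rw [h2, h3, ← hpu]
    have h4 := Polynomial.coeff_det_X_add_C_card A1 A0
    rw [Fintype.card_fin] at h4
    exact h4.symm

end plane

section small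

variable {k : Type} [Field k]

/-- A polynomial of degree at most `m` with small values at `m + 1` points has small
coefficients. -/
theorem coeff_small [Infinite k] (A : AbsoluteValue k ℝ) (m : ℕ) {κ : ℝ} (hκ : 0 < κ) :
    ∃ (x : Fin (m + 1) → k) (η : ℝ), Function.Injective x ∧ 0 < η ∧ ∀ R : k[X],
      R.natDegree ≤ m → (∀ i, A (R.eval (x i)) < η) → ∀ l, A (R.coeff l) < κ := by
  classical
  obtain ⟨x, hx⟩ : ∃ x : Fin (m + 1) → k, Function.Injective x := by
    exact ⟨fun i => Infinite.natEmbedding k i, fun i j h =>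
      Fin.ext ((Infinite.natEmbedding k).injective h)⟩
  have hinj : Set.InjOn x (Finset.univ : Finset (Fin (m + 1))) := hx.injOn
  obtain ⟨M, hM⟩ : ∃ M : ℝ, M = 1 + ∑ l ∈ Finset.range (m + 1), ∑ i : Fin (m + 1),
      A ((Lagrange.basis Finset.univ x i).coeff l) := ⟨_, rfl⟩
  have hM1 : 1 ≤ M := by
    rw [hM]
    have : 0 ≤ ∑ l ∈ Finset.range (m + 1), ∑ i : Fin (m + 1),
        A ((Lagrange.basis Finset.univ x i).coeff l) :=
      Finset.sum_nonneg fun l _ => Finset.sum_nonneg fun i _ => A.nonneg _
    linarith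
  have hM0 : 0 < M := by linarith
  refine ⟨x, κ / M, hx, by positivity, fun R hR hs l => ?_⟩
  by_cases hl : m < l
  · rw [coeff_eq_zero_of_natDegree_lt (hR.trans_lt hl), map_zero]
    exact hκ
  rw [not_lt] at hl
  have hdeg : R.degree < (Finset.univ : Finset (Fin (m + 1))).card := by
    rw [Finset.card_univ, Fintype.card_fin]
    refine (degree_le_natDegree).trans_lt ?_
    exact_mod_cast Nat.lt_succ_of_le hR
  have h1 := Lagrange.eq_interpolate hinj hdeg
  have h2 : R.coeff l = ∑ i : Fin (m + 1), R.eval (x i) *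
      (Lagrange.basis Finset.univ x i).coeff l := by
    conv_lhs => rw [h1]
    rw [Lagrange.interpolate_apply, finsetSum_coeff]
    refine Finset.sum_congr rfl fun i _ => ?_
    rw [coeff_C_mul]
  have h3 : A (R.coeff l) ≤ ∑ i : Fin (m + 1), κ / M *
      A ((Lagrange.basis Finset.univ x i).coeff l) := by
    rw [h2]
    refine (A.sum_le _ _).trans (Finset.sum_le_sum fun i _ => ?_)
    rw [map_mul]
    exact mul_le_mul_of_nonneg_right (hs i).le (A.nonneg _)
  rw [← Finset.mul_sum] at h3
  have h4 : ∑ i : Fin (m + 1), A ((Lagrange.basis Finset.univ x i).coeff l) ≤ M - 1 := by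
    rw [hM, add_sub_cancel_left]
    exact Finset.single_le_sum (f := fun l => ∑ i : Fin (m + 1),
      A ((Lagrange.basis Finset.univ x i).coeff l))
      (fun l _ => Finset.sum_nonneg fun i _ => A.nonneg _)
      (Finset.mem_range.mpr (Nat.lt_succ_of_le hl))
  have h5 : κ / M * M = κ := div_mul_cancel₀ _ hM0.ne'
  have h6 : 0 < κ / M := by positivity
  nlinarith

end small

end Vale.Agent.P011.H732D
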