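import Vale.Agent.P011.H976.FF.QuatF
import Vale.Agent.P011.H698.Bd
import Vale.Agent.P011.W.Defs

/-!
# Doubling the degree over function fields: the letters of the reduction to the centralizer
-/

open Module Polynomial

set_option linter.unusedSectionVars false

namespace Vale.Agent.P011.H732D

open Vale.Agent.P011.H738 Vale.Agent.P011.H271 Vale.Agent.P011.H305 Vale.Agent.P011.H698
open Vale.Agent.P011.Arith (NF)
open Vale.Agent.P011.H63.FB (LSF incF)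
open Vale.Agent.P011.H872.FF (XaF IsCentF kk om)
open Vale.Agent.P011.H976.FF (QEltF)

section defs

variable {k D : Type} [Field k] [DivisionRing D] [StarRing D] [Algebra k D] {N : ℕ}

/-- `x` is integral and has an integral inverse. -/
def Un (B : Basis (Fin N) k D) (v : Place k) (x : D) : Prop := Bd B v 1 x ∧ Bd B v 1 x⁻¹

variable (D) in
/-- The antisymmetric square roots of `δ`. -/
def Xs (δ : kˣ) : Set D := {j | star j = -j ∧ j * j = algebraMap k D δ}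

/-- The antisymmetric elements which anticommute with `I`. -/
def Wi (I : D) : Set D := {y | star y = -y ∧ y * I = -(I * y)}

/-- `Q` contains the elements of norm one of the quaternion algebras over symmetric subfields which
are close to one at the places of `T` and at the ramified places. -/
def HQ1F (B : Basis (Fin N) k D) (Q : Set D) (T : Finset (Place k)) (ε : ℝ) : Prop :=
  ∀ (F : Type) [Field F] [GFF F] [Algebra k F] (ι : F →ₐ[k] D) (α β : Fˣ) (i j : D)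
    (p₀ p₁ p₂ p₃ : F) (u : D), QEltF ι α β i j p₀ p₁ p₂ p₃ u →
    (∀ v ∈ T, Sm B v ε (u - 1)) →
    (∀ ω : Place F, β ∉ NF α ⊔ LSF ω → ω.abv (2 - 2 * p₀) < 1) → u ∈ Q

end defs

section im

variable {K D Ω : Type} [Field K] [DivisionRing D] [StarRing D] [Algebra K D] [Field Ω]
  [Algebra K Ω] {n : ℕ} {f : D →ₐ[K] Matrix (Fin n) (Fin n) Ω}

/-- The underlying set of elements. -/
def ImF (Q : Subgroup (SUA f)) : Set D := {x | ∃ g ∈ Q, (((g : SUA f) : Dˣ) : D) = x}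

end im

section ab

variable {k K D Ω : Type} [Field k] [Field K] [DivisionRing D] [StarRing D] [Algebra k D]
  [Algebra K D] [Field Ω] [Algebra K Ω] {n N : ℕ}

/-- The statement on the elements of the centralizer of `t`. -/
def AbAtF (B : Basis (Fin N) k D) (f : D →ₐ[K] Matrix (Fin n) (Fin n) Ω) (Q : Set D)
    (t : D) : Prop :=
  ∃ S : Finset (Place k), ∃ ε : ℝ, 0 < ε ∧ ∀ e : D, e * t = t * e → star e * e = 1 →
    (f e).det = 1 → (∀ v ∈ S, Sm B v ε (e - 1)) → e ∈ Q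

end ab

/-- **(R3) LOC.** Finitely many elements `y` of `Wi I` suffice at almost all places. -/
def LocF : Prop :=
  ∀ (k K D : Type) [Field k] [GFF k] [Field K] [StarRing K] [DivisionRing D] [StarRing D]
    [Algebra k K] [Algebra k D] [Algebra K D] [IsScalarTower k K D] (d : kˣ) (s : K)
    (_ : SetF k K D d s) (m : ℕ) (_ : 0 < m) (_ : finrank K D = (2 * m) ^ 2) (a : kˣ) (t : D)
    (_ : t ∈ XaF D a) (_ : ¬ IsSquare (a : k)) (_ : ¬ IsSquare ((a * d : kˣ) : k)) (N : ℕ)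
    (B : Basis (Fin N) k D) (I : D) (_ : I = algebraMap K D s * t),
    ∃ (S₁ : Set (Place k)) (J : Set D), S₁.Finite ∧ J.Finite ∧ J ⊆ Wi I ∧
      ∀ v ∉ S₁, a * d ∉ LSF v → ∀ x : D, x * star x = 1 → Bd B v 1 x →
        ∃ y ∈ J, Un B v (1 + y) ∧ Un B v (1 + y * y) ∧
          Un B v ((x + I * x * I⁻¹) * (1 + y * y) + 2 * ((x - I * x * I⁻¹) * y))

/-- **(R5) STEP.** Two antisymmetric square roots whose sum is a unit outside `S₀` are conjugate
under `Q`. -/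
def StepF : Prop :=
  ∀ (k K D : Type) [Field k] [GFF k] [Field K] [StarRing K] [DivisionRing D] [StarRing D]
    [Algebra k K] [Algebra k D] [Algebra K D] [IsScalarTower k K D] (d : kˣ) (s : K)
    (_ : SetF k K D d s) (N : ℕ) (B : Basis (Fin N) k D) (δ : kˣ) (_ : ¬ IsSquare (δ : k))
    (I : D) (_ : I ∈ Xs D δ) (Q : Set D) (T₀ : Finset (Place k)) (ε₀ : ℝ) (_ : 0 < ε₀)
    (_ : HQ1F B Q T₀ ε₀) (S₀ : Finset (Place k)) (_ : T₀ ⊆ S₀)
    (_ : ∀ v ∉ S₀, v.abv (δ : k) = 1 ∧ Gd B v) (θ : ℝ) (_ : 0 < θ),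
    ∃ κ : ℝ, 0 < κ ∧ ∀ i₁ ∈ Xs D δ, ∀ i₂ ∈ Xs D δ,
      (∀ v ∈ S₀, Sm B v κ (i₁ - I) ∧ Sm B v κ (i₂ - I)) →
      (∀ v ∉ S₀, δ ∉ LSF v → Un B v (i₁ + i₂)) →
      ∃ ν ∈ Q, ν * i₁ = i₂ * ν ∧ ∀ v ∈ S₀, Sm B v θ (ν - 1)

/-- The two coordinates of `(2 i (1 + i X)) ^ m`, `i ^ 2 = δ`. -/
noncomputable def uv {k : Type} [Field k] (δ : k) : ℕ → k[X] × k[X]
  | 0 => (1, 0)
  | m + 1 => (C (2 * δ) * X * (uv δ m).1 + C (2 * δ) * (uv δ m).2,
      C 2 * (uv δ m).1 + C (2 * δ) * X * (uv δ m).2)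

/-- **(R4) COP.** Polynomials close to the coordinates of `(2 i (1 + i X)) ^ m` are coprime. -/
def CopF : Prop :=
  ∀ (k : Type) [Field k] [GFF k] (_ : (2 : k) ≠ 0) (δ : k) (_ : ¬ IsSquare δ) (m : ℕ)
    (v : Place k), ∃ κ : ℝ, 0 < κ ∧ ∀ U V : k[X], U.natDegree ≤ m → V.natDegree ≤ m →
      (∀ l, v.abv (U.coeff l - (uv δ m).1.coeff l) < κ) →
      (∀ l, v.abv (V.coeff l - (uv δ m).2.coeff l) < κ) → IsCoprime U V

/-- **(R6a)** Approximation with one pole. -/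
def NumA : Prop :=
  ∀ (k : Type) [Field k] [GFF k] (S : Finset (Place k)) (q : Place k) (_ : q ∉ S)
    (c : Place k → k) (ε : ℝ) (_ : 0 < ε), ∃ μ : k, (∀ v ∈ S, v.abv (μ - c v) < ε) ∧
      ∀ v ∉ S, v ≠ q → v.abv μ ≤ 1

/-- **(R6b)** A grid avoids the common zeros modulo `v`. -/
def NumB : Prop :=
  ∀ (k : Type) [Field k] [GFF k] (v : Place k) (m : ℕ) (U V : k[X]) (_ : U.natDegree ≤ m)
    (_ : V.natDegree ≤ m) (_ : ∀ l, v.abv (U.coeff l) ≤ 1) (_ : ∀ l, v.abv (V.coeff l) ≤ 1)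
    (_ : v.abv (U.coeff m) = 1 ∨ v.abv (V.coeff m) = 1) (Θ : Finset k)
    (_ : ∀ x ∈ Θ, v.abv x ≤ 1) (_ : ∀ x ∈ Θ, ∀ y ∈ Θ, x ≠ y → v.abv (x - y) = 1),
    ∃ B : Finset k, B.card ≤ m ∧ ∀ x ∈ Θ, x ∉ B →
      v.abv (U.eval x) = 1 ∨ v.abv (V.eval x) = 1

end Vale.Agent.P011.H732D
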