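import Vale.Agent.P011.H732D.Asm3
import Vale.Agent.P011.H961.StepR5
import Vale.Agent.P011.H974.Loc
import Vale.Agent.P011.H976.FF.NrdGG
import Vale.Agent.P011.H704.HQ.Main
import Vale.Agent.P011.H704.HQ.ModAe
import Vale.Agent.P011.H167.CnA

/-!
# The reduction to the centralizer

An element which is close to one at finitely many places, and integral at all other places except
at one place where `a * d` is a local norm, belongs to `Q`, if the elements of the centralizer of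
`t` which are close to one belong to `Q`.
-/

open Module Polynomial

set_option linter.unusedSectionVars false

namespace Vale.Agent.P011.H732D

open Vale.Agent.P011.H738 Vale.Agent.P011.H271 Vale.Agent.P011.H305 Vale.Agent.P011.H698
open Vale.Agent.P011.H63.FB (LSF incF)
open Vale.Agent.P011.H872.FF (XaF IsCentF kk om)

variable {k K D : Type} [Field k] [GFF k] [Field K] [StarRing K]
    [DivisionRing D] [StarRing D] [Algebra k K] [Algebra k D] [Algebra K D] [IsScalarTower k K D]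
    {d : kˣ} {s : K} {t : D} {a : kˣ}

/-- **The reduction to the centralizer**, with the property that the order of the basis is good
outside the set of places. -/
theorem mem_of_ab' (hS : SetF k K D d s) (ht : t ∈ XaF D a) (ha : ¬ IsSquare (a : k))
    (had : ¬ IsSquare ((a * d : kˣ) : k)) {m N : ℕ} (hm : 0 < m)
    (hdeg : finrank K D = (2 * m) ^ 2) {Ω : Type} [Field Ω] [Algebra K Ω]
    (f : D →ₐ[K] Matrix (Fin (2 * m)) (Fin (2 * m)) Ω) (B : Basis (Fin N) k D)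
    (Q : Subgroup (SUA f)) {T₀ : Finset (Place k)} {ε₀ : ℝ} (hε₀ : 0 < ε₀)
    (hQ : H704.HQ.HQ1F k B T₀ ε₀ (ImF Q)) (hAb : AbAtF B f (ImF Q) t) :
    ∃ (S : Finset (Place k)) (ε : ℝ), 0 < ε ∧ (∀ v ∉ S, Gd B v) ∧ ∀ q ∉ S, a * d ∈ LSF q →
      ∀ x : D, x * star x = 1 → (f x).det = 1 → (∀ v ∈ S, Sm B v ε (x - 1)) →
      (∀ v ∉ S, v ≠ q → Bd B v 1 x) → x ∈ ImF Q := by
  classical
  obtain ⟨v0, -, -⟩ := Vale.Agent.P011.H704.HQ.exists_q_set hS (n := 2 * m) (by omega) hdeg a ∅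
  obtain ⟨L, _, _, _, K', _, _, _, _, C, _, _, _, _, _, _, T, ι, hSC, hC, h⟩ :=
    Vale.Agent.P011.H167.Cn.exists_isCentF hS ha had hdeg ht
  have := hS.cen
  obtain ⟨I, hI⟩ : ∃ I : D, I = algebraMap K D s * t := ⟨_, rfl⟩
  have hI1 : I ∈ Xs D (a * d) := by
    rw [hI]
    exact I_mem hS ht
  have h2D : (2 : D) ≠ 0 := Vale.Agent.P011.H872.FF.two_neD hS
  have hI0 : I ≠ 0 := by
    rintro rfl
    have := hI1.2
    rw [mul_zero] at this
    exact (a * d).ne_zero ((map_eq_zero (algebraMap k D)).mp this.symm)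
  obtain ⟨w, hw0, hw⟩ := Vale.Agent.P011.H974.Jac.exists_anti h
  have hwI : w * I = -(I * w) := by
    rw [hI, ← mul_assoc, ← Algebra.commutes s w, mul_assoc, hw, mul_neg, mul_assoc]
  obtain ⟨S₁, J, hS₁, hJ, hJW, hJ0, hloc⟩ := Vale.Agent.P011.H974.Loc.loc hS hm.ne' rfl hdeg
    hI1.1 hI1.2 hw0 hwI B
  have hgg : ∀ y ∈ Wi I, ∀ μ : k, (f (gg (jj I y) μ)).det =
      algebraMap K Ω (algebraMap k K (1 - μ ^ 2 * ((a * d : kˣ) : k))) ^ m := fun y hy μ =>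
    Vale.Agent.P011.H976.FF.nrd_gg hS ht ha had rfl hdeg f hI μ (one_add_ne h2D hI0 hy)
  obtain ⟨SA, θ, hθ, hrot⟩ := Vale.Agent.P011.H976.FF.rot_mem hS f B Q hAb
  obtain ⟨S, hSub, hv0, hgood, hmid⟩ := exists_mid hS ht hSC h hm hdeg hC had f B hI hgg hS₁ hJ
    hJW hJ0 hloc (T₀ ∪ SA) v0
  have h1Q : (1 : D) ∈ ImF Q := ⟨1, Q.one_mem, rfl⟩
  have hQ' : HQ1F B (ImF Q) T₀ ε₀ := fun F _ _ _ ι' α β i j p₀ p₁ p₂ p₃ u hu h1 h2 =>
    hQ F ι' α β i j p₀ p₁ p₂ p₃ u hu h2 fun v hv l => h1 v hv l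
  obtain ⟨κ, hκ, hstep⟩ := Vale.Agent.P011.H961.R5.step hS B (a * d) hI1 h1Q hε₀ hQ'
    (S₀ := S) ⟨v0, hv0⟩ (Finset.union_subset_left hSub) hgood hθ
  obtain ⟨ε, hε, hmid'⟩ := hmid κ hκ
  refine ⟨S, min ε θ, lt_min hε hθ, fun v hv => (hgood v hv).2,
    fun q hq hqs x hx hdx hxS hxi => ?_⟩
  obtain ⟨i, hi, hiS, hu1, hu2⟩ := hmid' q hq hqs x hx hdx
    (fun v hv => (hxS v hv).mono (min_le_left _ _)) hxi
  obtain ⟨ν₁, hν₁, hν₁', hn₁⟩ := hstep I hI1 i hi (fun v hv => ⟨by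
    rw [sub_self]
    exact sm_zero hκ, (hiS v hv).1⟩) hu1
  obtain ⟨ν₂, hν₂, hν₂', hn₂⟩ := hstep i hi (x * I * x⁻¹) (conj_unitary_mem hx hI1) hiS hu2
  rw [hI] at hν₁' hν₂'
  exact hrot x ν₁ ν₂ i hx hdx hν₁ hν₂ hν₁' hν₂' fun v hv => by
    have hv' : v ∈ S := hSub (Finset.mem_union_right _ hv)
    exact ⟨(hxS v hv').mono (min_le_right _ _), hn₁ v hv', hn₂ v hv'⟩

/-- **The reduction to the centralizer.** -/
theorem mem_of_ab (hS : SetF k K D d s) (ht : t ∈ XaF D a) (ha : ¬ IsSquare (a : k))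
    (had : ¬ IsSquare ((a * d : kˣ) : k)) {m N : ℕ} (hm : 0 < m)
    (hdeg : finrank K D = (2 * m) ^ 2) {Ω : Type} [Field Ω] [Algebra K Ω]
    (f : D →ₐ[K] Matrix (Fin (2 * m)) (Fin (2 * m)) Ω) (B : Basis (Fin N) k D)
    (Q : Subgroup (SUA f)) {T₀ : Finset (Place k)} {ε₀ : ℝ} (hε₀ : 0 < ε₀)
    (hQ : H704.HQ.HQ1F k B T₀ ε₀ (ImF Q)) (hAb : AbAtF B f (ImF Q) t) :
    ∃ (S : Finset (Place k)) (ε : ℝ), 0 < ε ∧ ∀ q ∉ S, a * d ∈ LSF q → ∀ x : D,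
      x * star x = 1 → (f x).det = 1 → (∀ v ∈ S, Sm B v ε (x - 1)) →
      (∀ v ∉ S, v ≠ q → Bd B v 1 x) → x ∈ ImF Q := by
  obtain ⟨S, ε, hε, -, h⟩ := mem_of_ab' hS ht ha had hm hdeg f B Q hε₀ hQ hAb
  exact ⟨S, ε, hε, h⟩

end Vale.Agent.P011.H732D
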