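import Vale.Agent.P011.H732D.Spec

/-!
# Antisymmetric square roots: the identities of the two-step path
-/

open Module Polynomial

set_option linter.unusedSectionVars false

namespace Vale.Agent.P011.H732D

section alg

variable {k D : Type} [Field k] [DivisionRing D] [StarRing D] [Algebra k D] {δ : kˣ} {I j x y : D}

/-- The element `h I + I h` of the centralizer of `I`. -/
def cc (I h : D) : D := h * I + I * h

theorem cc_add (I h h' : D) : cc I (h + h') = cc I h + cc I h' := by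
  unfold cc
  noncomm_ring

theorem cc_smul (I h : D) (c : k) : cc I (c • h) = c • cc I h := by
  unfold cc
  rw [smul_add, smul_mul_assoc, mul_smul_comm]

theorem cc_comm (hI : I ∈ Xs D δ) (h : D) : cc I h * I = I * cc I h := by
  unfold cc
  have h2 : ∀ z : D, z * algebraMap k D (δ : k) = algebraMap k D (δ : k) * z := fun z =>
    (Algebra.commutes _ z).symm
  calc (h * I + I * h) * I = h * (I * I) + I * h * I := by noncomm_ring
    _ = I * I * h + I * h * I := by rw [hI.2, h2]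
    _ = I * (h * I + I * h) := by noncomm_ring

/-- The element `1 + μ j`. -/
def gg (j : D) (μ : k) : D := 1 + μ • j

theorem sq_smul (hj : j ∈ Xs D δ) (μ : k) :
    (μ • j) * (μ • j) = algebraMap k D (μ ^ 2 * δ) := by
  rw [smul_mul_smul_comm, hj.2, ← pow_two, Algebra.smul_def, ← map_mul]

variable (hst : ∀ (c : k) (x : D), star (c • x) = c • star x)

include hst in
theorem star_gg (hj : j ∈ Xs D δ) (μ : k) : star (gg j μ) = 1 - μ • j := by
  unfold gg
  rw [star_add, star_one, hst, hj.1, smul_neg, sub_eq_add_neg]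

include hst in
theorem gg_mul_star (hj : j ∈ Xs D δ) (μ : k) :
    gg j μ * star (gg j μ) = algebraMap k D (1 - μ ^ 2 * δ) := by
  rw [star_gg hst hj]
  unfold gg
  have h : ∀ z : D, (1 + z) * (1 - z) = 1 - z * z := fun z => by noncomm_ring
  rw [h, sq_smul hj, map_sub, map_one]

include hst in
theorem star_mul_gg (hj : j ∈ Xs D δ) (μ : k) :
    star (gg j μ) * gg j μ = algebraMap k D (1 - μ ^ 2 * δ) := by
  rw [star_gg hst hj]
  unfold gg
  have h : ∀ z : D, (1 - z) * (1 + z) = 1 - z * z := fun z => by noncomm_ring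
  rw [h, sq_smul hj, map_sub, map_one]

theorem rho_ne (hδ : ¬ IsSquare (δ : k)) (μ : k) : (1 : k) - μ ^ 2 * δ ≠ 0 := by
  intro h
  apply hδ
  have hμ : μ ≠ 0 := by
    rintro rfl
    rw [zero_pow two_ne_zero, zero_mul, sub_zero] at h
    exact one_ne_zero h
  refine ⟨μ⁻¹, ?_⟩
  field_simp
  linear_combination -h

include hst in
theorem gg_ne (hδ : ¬ IsSquare (δ : k)) (hj : j ∈ Xs D δ) (μ : k) : gg j μ ≠ 0 := by
  intro h
  have h1 := gg_mul_star hst hj μ
  rw [h, zero_mul] at h1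
  exact rho_ne hδ μ ((map_eq_zero (algebraMap k D)).mp h1.symm)

/-- A similitude which is not zero conjugates antisymmetric square roots to antisymmetric square
roots. -/
theorem conj_mem {g : D} {ρ : k} (hg : g * star g = algebraMap k D ρ)
    (hg' : star g * g = algebraMap k D ρ) (hρ : ρ ≠ 0) (hI : I ∈ Xs D δ) :
    g * I * g⁻¹ ∈ Xs D δ := by
  have hρ' : algebraMap k D ρ ≠ 0 := (map_ne_zero (algebraMap k D)).mpr hρ
  have hg0 : g ≠ 0 := by
    rintro rfl
    rw [zero_mul] at hg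
    exact hρ' hg.symm
  have hsg : star g = algebraMap k D ρ * g⁻¹ := by
    rw [← hg', mul_inv_cancel_right₀ hg0]
  have hsg0 : star g ≠ 0 := star_ne_zero.mpr hg0
  refine ⟨?_, ?_⟩
  · have h1 : (star g)⁻¹ = g * (algebraMap k D ρ)⁻¹ := by
      rw [hsg, mul_inv_rev, inv_inv]
    rw [star_mul, star_mul, star_inv₀, hI.1, h1, hsg]
    have h2 : (algebraMap k D ρ)⁻¹ = algebraMap k D ρ⁻¹ := (map_inv₀ _ _).symm
    rw [h2]
    calc g * algebraMap k D ρ⁻¹ * (-I * (algebraMap k D ρ * g⁻¹))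
        = -(g * (algebraMap k D ρ⁻¹ * (I * algebraMap k D ρ)) * g⁻¹) := by noncomm_ring
      _ = -(g * I * g⁻¹) := by
        rw [← Algebra.commutes ρ I, ← mul_assoc (algebraMap k D ρ⁻¹), ← map_mul,
          inv_mul_cancel₀ hρ, map_one, one_mul]
  · calc g * I * g⁻¹ * (g * I * g⁻¹) = g * (I * (g⁻¹ * g) * I) * g⁻¹ := by noncomm_ring
      _ = algebraMap k D δ := by
        rw [inv_mul_cancel₀ hg0, mul_one, hI.2, ← Algebra.commutes, mul_assoc,
          mul_inv_cancel₀ hg0, mul_one]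

theorem conj_unitary_mem (hx : x * star x = 1) (hI : I ∈ Xs D δ) : x * I * x⁻¹ ∈ Xs D δ := by
  have h0 : x ≠ 0 := left_ne_zero_of_mul_eq_one hx
  have hx' : star x * x = 1 := by
    rw [eq_inv_of_mul_eq_one_right hx, inv_mul_cancel₀ h0]
  exact conj_mem (ρ := (1 : k)) (by rw [hx, map_one]) (by rw [hx', map_one]) one_ne_zero hI

/-- The first pair. -/
theorem pair_one {g : D} (hg0 : g ≠ 0) : (I + g * I * g⁻¹) * g = cc I g := by
  unfold cc
  rw [add_mul, inv_mul_cancel_right₀ hg0, add_comm]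

/-- The second pair. -/
theorem pair_two {g : D} (hg0 : g ≠ 0) (hx : x * star x = 1) :
    (g * I * g⁻¹ + x * I * x⁻¹) * g = x * cc I (star x * g) := by
  have h0 : x ≠ 0 := left_ne_zero_of_mul_eq_one hx
  have hx' : x⁻¹ = star x := (eq_inv_of_mul_eq_one_right hx).symm
  unfold cc
  rw [add_mul, inv_mul_cancel_right₀ hg0, hx']
  calc g * I + x * I * star x * g = (x * star x) * g * I + x * I * star x * g := by
        rw [hx, one_mul]
    _ = _ := by noncomm_ring

theorem cc_gg (X : D) (μ : k) : cc I (X * gg j μ) = cc I X + μ • cc I (X * j) := by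
  unfold gg
  rw [mul_add, mul_one, mul_smul_comm, cc_add, cc_smul]

end alg

section cay

variable {k D : Type} [Field k] [DivisionRing D] [StarRing D] [Algebra k D] {δ : kˣ} {I y : D}

theorem wi_sq_comm (hy : y ∈ Wi I) : y * y * I = I * (y * y) := by
  rw [mul_assoc, hy.2, mul_neg, ← mul_assoc, hy.2, neg_mul, neg_neg, mul_assoc]

theorem one_add_ne (h2 : (2 : D) ≠ 0) (hI : I ≠ 0) (hy : y ∈ Wi I) : 1 + y ≠ 0 := by
  intro h
  have h1 : y = -1 := by
    rw [add_comm] at h
    exact eq_neg_of_add_eq_zero_left h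
  have h3 := hy.2
  rw [h1] at h3
  apply hI
  have h4 : (2 : D) * I = 0 := by
    rw [neg_one_mul, mul_neg, mul_one, neg_neg] at h3
    rw [two_mul]
    nth_rewrite 1 [← h3]
    exact neg_add_cancel I
  exact (mul_eq_zero.mp h4).resolve_left h2

theorem one_sub_ne (h2 : (2 : D) ≠ 0) (hI : I ≠ 0) (hy : y ∈ Wi I) : 1 - y ≠ 0 := by
  have h := one_add_ne h2 hI (y := star y) ⟨by rw [hy.1, star_neg, hy.1], by
    rw [hy.1, neg_mul, hy.2, neg_neg, mul_neg, neg_neg]⟩
  rwa [hy.1, ← sub_eq_add_neg] at h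

theorem star_one_add (hy : y ∈ Wi I) : star (1 + y) = 1 - y := by
  rw [star_add, star_one, hy.1, sub_eq_add_neg]

/-- The antisymmetric square root attached to `y`. -/
def jj (I y : D) : D := (1 + y) * I * (1 + y)⁻¹

theorem jj_mem (h2 : (2 : D) ≠ 0) (hI : I ∈ Xs D δ) (hy : y ∈ Wi I) : jj I y ∈ Xs D δ := by
  have hI0 : I ≠ 0 := by
    rintro rfl
    have := hI.2
    rw [mul_zero] at this
    exact δ.ne_zero ((map_eq_zero (algebraMap k D)).mp this.symm)
  have h0 := one_add_ne h2 hI0 hy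
  have h0' := one_sub_ne h2 hI0 hy
  unfold jj
  refine ⟨?_, ?_⟩
  · rw [star_mul, star_mul, star_inv₀, hI.1, star_one_add hy]
    have h1 : -I * (1 - y) = -((1 + y) * I) := by
      rw [neg_mul, mul_sub, mul_one, add_mul, one_mul, hy.2]
      noncomm_ring
    have h3 : (1 + y) * I = I * (1 - y) := by
      rw [mul_sub, mul_one, add_mul, one_mul, hy.2]
      noncomm_ring
    have h4 : (1 - y)⁻¹ * (I * (1 - y)) = (1 + y) * I * (1 + y)⁻¹ := by
      have h5 : (1 - y) * I = I * (1 + y) := by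
        rw [mul_add, mul_one, sub_mul, one_mul, hy.2]
        noncomm_ring
      have h6 : (1 - y)⁻¹ * I = I * (1 + y)⁻¹ := by
        rw [inv_mul_eq_iff_eq_mul₀ h0', ← mul_assoc, h5, mul_assoc, mul_inv_cancel₀ h0, mul_one]
      have h7 : (1 + y)⁻¹ * (1 - y) = (1 - y) * (1 + y)⁻¹ := by
        rw [inv_mul_eq_iff_eq_mul₀ h0, ← mul_assoc, eq_mul_inv_iff_mul_eq₀ h0]
        noncomm_ring
      rw [← mul_assoc, h6, mul_assoc, h7, ← mul_assoc, h3]
    rw [h1, mul_neg, h3, h4, h3]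
  · calc (1 + y) * I * (1 + y)⁻¹ * ((1 + y) * I * (1 + y)⁻¹)
        = (1 + y) * (I * ((1 + y)⁻¹ * (1 + y)) * I) * (1 + y)⁻¹ := by noncomm_ring
      _ = algebraMap k D δ := by
        rw [inv_mul_cancel₀ h0, mul_one, hI.2, ← Algebra.commutes, mul_assoc,
          mul_inv_cancel₀ h0, mul_one]

/-- The commuting part of `X j`. -/
theorem cc_jj (h2 : (2 : D) ≠ 0) (hI : I ∈ Xs D δ) (hy : y ∈ Wi I) (X : D) :
    cc I (X * jj I y) = algebraMap k D δ *
      (((X + I * X * I⁻¹) * (1 + y * y) + 2 * ((X - I * X * I⁻¹) * y)) *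
        ((1 + y)⁻¹ * (1 - y)⁻¹)) := by
  have hI0 : I ≠ 0 := by
    rintro rfl
    have := hI.2
    rw [mul_zero] at this
    exact δ.ne_zero ((map_eq_zero (algebraMap k D)).mp this.symm)
  have h0 := one_add_ne h2 hI0 hy
  have h0' := one_sub_ne h2 hI0 hy
  have h3 : (1 + y) * I = I * (1 - y) := by
    rw [mul_sub, mul_one, add_mul, one_mul, hy.2]
    noncomm_ring
  have h5 : (1 - y) * I = I * (1 + y) := by
    rw [mul_add, mul_one, sub_mul, one_mul, hy.2]
    noncomm_ring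
  have h8 : (1 + y) * (1 - y) = (1 - y) * (1 + y) := by noncomm_ring
  -- `j = I (1 - y)² ((1 + y) (1 - y))⁻¹`
  have hj : jj I y * ((1 - y) * (1 + y)) = I * ((1 - y) * (1 - y)) := by
    unfold jj
    rw [h3, ← h8]
    calc I * (1 - y) * (1 + y)⁻¹ * ((1 + y) * (1 - y))
        = I * (1 - y) * ((1 + y)⁻¹ * (1 + y)) * (1 - y) := by noncomm_ring
      _ = _ := by rw [inv_mul_cancel₀ h0, mul_one, mul_assoc]
  have hjI : ((1 - y) * (1 + y)) * I = I * ((1 - y) * (1 + y)) := by
    rw [mul_assoc, h3, ← mul_assoc, h5, mul_assoc, h8]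
  have hP : ((1 + y)⁻¹ * (1 - y)⁻¹) * ((1 - y) * (1 + y)) = 1 := by
    rw [mul_assoc, inv_mul_cancel_left₀ h0', inv_mul_cancel₀ h0]
  have hP0 : (1 - y) * (1 + y) ≠ 0 := mul_ne_zero h0' h0
  apply mul_right_cancel₀ hP0
  have hd : ∀ z : D, algebraMap k D δ * z = z * (I * I) := fun z => by
    rw [hI.2, Algebra.commutes]
  have e1 : algebraMap k D δ * (((X + I * X * I⁻¹) * (1 + y * y) +
      2 * ((X - I * X * I⁻¹) * y)) * ((1 + y)⁻¹ * (1 - y)⁻¹)) * ((1 - y) * (1 + y)) =
      ((X + I * X * I⁻¹) * (1 + y * y) + 2 * ((X - I * X * I⁻¹) * y)) * (I * I) := by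
    rw [mul_assoc, mul_assoc _ _ ((1 - y) * (1 + y)), hP, mul_one, hd]
  rw [e1]
  unfold cc
  have e2 : (X * jj I y * I + I * (X * jj I y)) * ((1 - y) * (1 + y)) =
      X * (jj I y * ((1 - y) * (1 + y))) * I + I * (X * (jj I y * ((1 - y) * (1 + y)))) := by
    rw [add_mul, mul_assoc (X * jj I y) I, ← hjI]
    noncomm_ring
  rw [e2, hj]
  have hyI : y * I = -(I * y) := hy.2
  have e3 : (1 - y) * (1 - y) * I = I * ((1 + y) * (1 + y)) := by
    rw [mul_assoc, h5, ← mul_assoc, h5, mul_assoc]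
  have e4 : X * (I * ((1 - y) * (1 - y))) * I = X * (I * I) * ((1 + y) * (1 + y)) := by
    calc _ = X * (I * ((1 - y) * (1 - y) * I)) := by noncomm_ring
      _ = _ := by rw [e3]; noncomm_ring
  have hII : ∀ z : D, z * (I * I) = I * I * z := fun z => by
    rw [hI.2, Algebra.commutes]
  have e5 : I * (X * (I * ((1 - y) * (1 - y)))) =
      I * X * I⁻¹ * (I * I) * ((1 - y) * (1 - y)) := by
    calc _ = I * X * (I⁻¹ * I) * I * ((1 - y) * (1 - y)) := by
          rw [inv_mul_cancel₀ hI0]; noncomm_ring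
      _ = _ := by noncomm_ring
  rw [e4, e5, hII ((X + I * X * I⁻¹) * (1 + y * y) + 2 * ((X - I * X * I⁻¹) * y)), hII X,
    hII (I * X * I⁻¹)]
  noncomm_ring

end cay

end Vale.Agent.P011.H732D
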