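import Vale.Agent.P011.H732D.Poly
import Vale.Agent.P011.H704.HQ.Un
import Vale.Agent.P011.H496.PolyInt
import Vale.Agent.P011.H496.NumF

/-!
# Assembly of the reduction to the centralizer: the points of the grid, the pencils, the choice of
`y`
-/

open Module Polynomial

set_option linter.unusedSectionVars false

namespace Vale.Agent.P011.H732D

open Vale.Agent.P011.H738 Vale.Agent.P011.H271 Vale.Agent.P011.H305 Vale.Agent.P011.H698
open Vale.Agent.P011.H63.FB (LSF incF)
open Vale.Agent.P011.H872.FF (XaF IsCentF kk om)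
open Vale.Agent.P011.W (HasNrd)
open Vale.Agent.P011.H182 (na na_add_le na_nonneg na_smul)
open Vale.Agent.P011.H496.NumF (grid poly_int eval_le)
open Vale.Agent.P011.H704.HQ (bd_mul un_inv un_mul un_star un_of_near un_of_nrd)

section grid

variable {k : Type} [Field k] (v : Place k)

/-- Polynomials with integral coefficients are Lipschitz. -/
theorem eval_near {U : k[X]} (hU : ∀ l, v.abv (U.coeff l) ≤ 1) {x y : k} (hx : v.abv x ≤ 1)
    (hy : v.abv y ≤ 1) (hxy : v.abv (x - y) < 1) : v.abv (U.eval x - U.eval y) < 1 := by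
  classical
  rw [eval_eq_sum_range, eval_eq_sum_range, ← Finset.sum_sub_distrib]
  refine Vale.Agent.P011.H496.NumF.sum_lt v _ _ fun i _ => ?_
  rw [← mul_sub, map_mul]
  have h1 : v.abv (x ^ i - y ^ i) < 1 := by
    have h2 : v.abv (∑ l ∈ Finset.range i, x ^ l * y ^ (i - 1 - l)) ≤ 1 := by
      have h3 : ∀ (s : Finset ℕ) (g : ℕ → k), (∀ l ∈ s, v.abv (g l) ≤ 1) →
          v.abv (∑ l ∈ s, g l) ≤ 1 := by
        intro s g
        induction s using Finset.induction_on with
        | empty => intro _; rw [Finset.sum_empty, map_zero]; exact zero_le_one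
        | insert a s ha ih =>
          intro h
          rw [Finset.sum_insert ha]
          exact (v.nonarch _ _).trans (max_le (h a (Finset.mem_insert_self _ _))
            (ih fun i hi => h i (Finset.mem_insert_of_mem hi)))
      refine h3 _ _ fun l _ => ?_
      rw [map_mul, map_pow, map_pow]
      exact mul_le_one₀ (pow_le_one₀ (v.abv.nonneg _) hx) (pow_nonneg (v.abv.nonneg _) _)
        (pow_le_one₀ (v.abv.nonneg _) hy)
    rw [← Commute.geom_sum₂_mul (Commute.all x y) i, map_mul]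
    calc _ ≤ 1 * v.abv (x - y) := mul_le_mul_of_nonneg_right h2 (v.abv.nonneg _)
      _ < 1 := by rw [one_mul]; exact hxy
  calc v.abv (U.coeff i) * v.abv (x ^ i - y ^ i) ≤ 1 * v.abv (x ^ i - y ^ i) :=
        mul_le_mul_of_nonneg_right (hU i) (v.abv.nonneg _)
    _ < 1 := by rw [one_mul]; exact h1

theorem unit_near {x y : k} (hx : v.abv x = 1) (hxy : v.abv (y - x) < 1) : v.abv y = 1 := by
  have h1 : y = (y - x) + x := by ring
  have h2 : v.abv y ≤ 1 := by
    rw [h1]
    exact (v.nonarch _ _).trans (max_le hxy.le hx.le)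
  refine le_antisymm h2 ?_
  by_contra h3
  rw [not_le] at h3
  have h4 : x = -(y - x) + y := by ring
  have h5 : v.abv x < 1 := by
    conv_lhs => rw [h4]
    refine (v.nonarch _ _).trans_lt (max_lt ?_ h3)
    rwa [AbsoluteValue.map_neg]
  rw [hx] at h5
  exact lt_irrefl _ h5

/-- **The point of the grid.** -/
theorem exists_theta {m : ℕ} {U V U' V' : k[X]} (hU : U.natDegree ≤ m) (hV : V.natDegree ≤ m)
    (hU' : U'.natDegree ≤ m) (hV' : V'.natDegree ≤ m) (Θ : Finset k)
    (hi : ∀ x ∈ Θ, v.abv x ≤ 1) (hd : ∀ x ∈ Θ, ∀ y ∈ Θ, x ≠ y → v.abv (x - y) = 1)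
    (hc : 2 * m < Θ.card)
    (h1 : ∀ x ∈ Θ, v.abv (U.eval x) ≤ 1 ∧ v.abv (V.eval x) ≤ 1)
    (h2 : ∀ x ∈ Θ, v.abv (U'.eval x) ≤ 1 ∧ v.abv (V'.eval x) ≤ 1)
    (h3 : v.abv (U.coeff m) = 1 ∨ v.abv (V.coeff m) = 1)
    (h4 : v.abv (U'.coeff m) = 1 ∨ v.abv (V'.coeff m) = 1) :
    ∃ θ ∈ Θ, ∀ μ : k, v.abv (μ - θ) < 1 →
      (v.abv (U.eval μ) = 1 ∨ v.abv (V.eval μ) = 1) ∧
      (v.abv (U'.eval μ) = 1 ∨ v.abv (V'.eval μ) = 1) := by
  classical
  have hc' : m < Θ.card := by omega
  have a1 := poly_int hU hi hd hc' fun x hx => (h1 x hx).1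
  have a2 := poly_int hV hi hd hc' fun x hx => (h1 x hx).2
  have a3 := poly_int hU' hi hd hc' fun x hx => (h2 x hx).1
  have a4 := poly_int hV' hi hd hc' fun x hx => (h2 x hx).2
  obtain ⟨B1, hB1, g1⟩ := grid v hU hV a1 a2 h3 Θ hi hd
  obtain ⟨B2, hB2, g2⟩ := grid v hU' hV' a3 a4 h4 Θ hi hd
  obtain ⟨θ, hθ, hθ'⟩ : ∃ θ ∈ Θ, θ ∉ B1 ∪ B2 := by
    by_contra hcon
    push Not at hcon
    have h5 : Θ ⊆ B1 ∪ B2 := hcon
    have h6 := Finset.card_le_card h5
    have h7 := Finset.card_union_le B1 B2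
    omega
  rw [Finset.mem_union, not_or] at hθ'
  refine ⟨θ, hθ, fun μ hμ => ?_⟩
  have hμ1 : v.abv μ ≤ 1 := by
    have e : μ = (μ - θ) + θ := by ring
    rw [e]
    exact (v.nonarch _ _).trans (max_le hμ.le (hi θ hθ))
  have key : ∀ P : k[X], (∀ l, v.abv (P.coeff l) ≤ 1) → v.abv (P.eval θ) = 1 →
      v.abv (P.eval μ) = 1 := fun P hP h =>
    unit_near v h (eval_near v hP hμ1 (hi θ hθ) hμ)
  exact ⟨(g1 θ hθ hθ'.1).imp (key U a1) (key V a2), (g2 θ hθ hθ'.2).imp (key U' a3) (key V' a4)⟩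

end grid

section pencil

variable {k K D L K' C : Type} [Field k] [Field K] [StarRing K]
    [DivisionRing D] [StarRing D] [Algebra k K] [Algebra k D] [Algebra K D] [IsScalarTower k K D]
    [Field L] [Algebra k L] [Field K'] [StarRing K']
    [Algebra K K'] [DivisionRing C] [StarRing C] [Algebra L K'] [Algebra L C] [Algebra K' C]
    [IsScalarTower L K' C] {d : kˣ} {s : K} {t : D} {a : kˣ} {T : L} {ι : C →+* D}

theorem comm_t (hS : SetF k K D d s) {z : D}
    (hz : z * (algebraMap K D s * t) = algebraMap K D s * t * z) : z * t = t * z := by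
  have hs0 : algebraMap K D s ≠ 0 := (_root_.map_ne_zero _).mpr hS.s_ne
  apply mul_left_cancel₀ hs0
  rw [← mul_assoc, Algebra.commutes s z, mul_assoc, hz, mul_assoc]

/-- **The pencil attached to a unitary element.** -/
theorem exists_pencil [Infinite k] (hS : SetF k K D d s)
    (hSC : SetF L K' C (incF k L d) (algebraMap K K' s))
    (h : IsCentF k K D L K' C t a T ι) (ht : t ∈ XaF D a) {m : ℕ}
    (hdeg : finrank K D = (2 * m) ^ 2) (hC : finrank K' C = m ^ 2) {Ω : Type} [Field Ω]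
    [Algebra K Ω] (f : D →ₐ[K] Matrix (Fin (2 * m)) (Fin (2 * m)) Ω)
    (had : ¬ IsSquare ((a * d : kˣ) : k)) {j : D} (hj : j ∈ Xs D (a * d))
    (hgg : ∀ μ : k, (f (gg j μ)).det =
      algebraMap K Ω (algebraMap k K (1 - μ ^ 2 * ((a * d : kˣ) : k))) ^ m)
    {X : D} (hX : X * star X = 1) (hX1 : (f X).det = 1) :
    ∃ (c0 c1 : C) (U V : k[X]), ι c0 = cc (algebraMap K D s * t) X ∧
      ι c1 = cc (algebraMap K D s * t) (X * j) ∧ U.natDegree ≤ m ∧ V.natDegree ≤ m ∧
      (∀ μ : k, ι (c0 + algebraMap K' C (kk k K K' μ) * c1) =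
        cc (algebraMap K D s * t) (X * gg j μ)) ∧
      (∀ μ : k, HasNrd K' m (c0 + algebraMap K' C (kk k K K' μ) * c1)
        (kk k K K' (U.eval μ) + kk k K K' (V.eval μ) * om K' s T)) ∧
      HasNrd K' m c1 (kk k K K' (U.coeff m) + kk k K K' (V.coeff m) * om K' s T) := by
  have : Infinite K := Infinite.of_injective _ (algebraMap k K).injective
  have hI := I_mem hS ht
  obtain ⟨c0, hc0⟩ := (h.range _).mp (comm_t hS (cc_comm hI X))
  obtain ⟨c1, hc1⟩ := (h.range _).mp (comm_t hS (cc_comm hI (X * j)))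
  have hcc : ∀ μ : k, ι (c0 + algebraMap K' C (kk k K K' μ) * c1) =
      cc (algebraMap K D s * t) (X * gg j μ) := by
    intro μ
    rw [map_add, map_mul, iota_kk h, hc0, hc1, cc_gg, Algebra.smul_def]
  have hst : ∀ (c : k) (x : D), star (c • x) = c • star x := fun c x => hS.star_smulk c x
  obtain ⟨U, V, h1, h2, h3, h4⟩ := exists_poly hSC (s := s) (T := T) hC (c0 := c0) (c1 := c1)
    (fun μ => by
      refine exists_plane hS hSC h ht rfl hdeg hC f (x := X * gg j μ) (rho_ne had μ) ?_ ?_ (hcc μ)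
      · rw [star_mul]
        calc X * gg j μ * (star (gg j μ) * star X) =
            X * (gg j μ * star (gg j μ)) * star X := by noncomm_ring
          _ = _ := by
            rw [gg_mul_star hst hj, ← Algebra.commutes, mul_assoc, hX, mul_one]
      · rw [map_mul, Matrix.det_mul, hX1, one_mul, hgg])
  exact ⟨c0, c1, U, V, hc0, hc1, h1, h2, hcc, h3, h4⟩

/-- The pencil has no zero when its polynomials are coprime. -/
theorem pencil_ne (hS : SetF k K D d s)
    (hSC : SetF L K' C (incF k L d) (algebraMap K K' s))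
    (h : IsCentF k K D L K' C t a T ι) {m : ℕ} (hm : 0 < m) (hC : finrank K' C = m ^ 2) {c : C}
    {U V : k[X]} (hUV : IsCoprime U V) {μ : k}
    (hc : HasNrd K' m c (kk k K K' (U.eval μ) + kk k K K' (V.eval μ) * om K' s T)) : c ≠ 0 := by
  rintro rfl
  have := hSC.fin
  have := hSC.cen
  obtain ⟨g⟩ := Vale.Agent.P011S.exists_split (K := K') (D := C) hC (AlgebraicClosure K')
  have h1 := hc _ g
  have : Nonempty (Fin m) := ⟨⟨0, hm⟩⟩
  rw [map_zero, Matrix.det_zero] at h1
  have h2 := ((_root_.map_eq_zero (algebraMap K' (AlgebraicClosure K'))).mp h1.symm)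
  obtain ⟨h3, h4⟩ := plane_inj hS hSC h h2
  obtain ⟨P, R, hPR⟩ := hUV
  have h5 := congrArg (eval μ) hPR
  rw [eval_add, eval_mul, eval_mul, h3, h4, mul_zero, mul_zero, add_zero, eval_one] at h5
  exact zero_ne_one h5

end pencil

section choice

variable {k D : Type} [Field k] [GFF k] [DivisionRing D] [StarRing D] [Algebra k D] {N : ℕ}

/-- **The choice of `y`.** -/
theorem exists_y (hst : ∀ (c : k) (x : D), star (c • x) = c • star x) (B : Basis (Fin N) k D)
    {I : D} {J : Set D} (hJ : J.Finite) (hJW : J ⊆ Wi I) (v0 q : Place k) (hq : v0 ≠ q)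
    {U₀ : Set (Place k)} (hU₀ : U₀.Finite) (h0 : v0 ∉ U₀) (hqU : q ∉ U₀)
    (hJ1 : ∀ v ∈ U₀, ∀ y ∈ J, Bd B v 1 y) (yv : Place k → D) (hyv : ∀ v ∈ U₀, yv v ∈ J)
    {ε : ℝ} (hε : 0 < ε) :
    ∃ y ∈ Wi I, (∀ v ∈ U₀, Sm B v 1 (y - yv v)) ∧ Sm B v0 ε y := by
  classical
  have := hJ.fintype
  -- the size at `v0`
  obtain ⟨M, hM1, hM⟩ : ∃ M : ℝ, 1 ≤ M ∧ ∀ y ∈ J, Bd B v0 M y := by
    choose c hc1 hc using fun y : D => exists_bd (B := B) (v := v0) y
    refine ⟨1 + ∑ y ∈ hJ.toFinset, c y, ?_, fun y hy => (hc y).mono ?_⟩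
    · have := Finset.sum_nonneg fun y (_ : y ∈ hJ.toFinset) => zero_le_one.trans (hc1 y)
      linarith
    · have := Finset.single_le_sum (f := c) (fun y _ => zero_le_one.trans (hc1 y))
        (hJ.mem_toFinset.mpr hy)
      linarith
  have hM0 : 0 < M := by linarith
  choose c hc hc' using fun y : D => Vale.Agent.P011.H496.NumF.near_int_fam
    (S := insert v0 U₀) (hU₀.insert v0) q (by
      rw [Set.mem_insert_iff, not_or]
      exact ⟨Ne.symm hq, hqU⟩) (fun v => if v = v0 then 0 else if yv v = y then 1 else 0)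
    (fun v => if v = v0 then ε / (2 * M) else 1) (fun v _ => by
      by_cases hv : v = v0
      · rw [if_pos hv]
        positivity
      · rw [if_neg hv]
        exact one_pos)
  refine ⟨∑ y ∈ hJ.toFinset, c y • y, ?_, fun v hv => ?_, ?_⟩
  · have hW : ∀ (s : Finset D), (∀ y ∈ s, y ∈ Wi I) → ∑ y ∈ s, c y • y ∈ Wi I := by
      intro s hs
      refine ⟨?_, ?_⟩
      · rw [star_sum, ← Finset.sum_neg_distrib]
        exact Finset.sum_congr rfl fun y hy => by rw [hst, (hs y hy).1, smul_neg]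
      · rw [Finset.sum_mul, Finset.mul_sum, ← Finset.sum_neg_distrib]
        exact Finset.sum_congr rfl fun y hy => by
          rw [smul_mul_assoc, (hs y hy).2, mul_smul_comm, smul_neg]
    exact hW _ fun y hy => hJW (hJ.mem_toFinset.mp hy)
  · have hvv : v ≠ v0 := by
      rintro rfl
      exact h0 hv
    have e : yv v = ∑ y ∈ hJ.toFinset, (if yv v = y then (1 : k) else 0) • y := by
      simp only [ite_smul, one_smul, zero_smul]
      rw [Finset.sum_ite_eq, if_pos (hJ.mem_toFinset.mpr (hyv v hv))]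
    rw [e, ← Finset.sum_sub_distrib]
    have hs : ∀ (s : Finset D), (∀ y ∈ s, Sm B v 1 (c y • y -
        (if yv v = y then (1 : k) else 0) • y)) → Sm B v 1 (∑ y ∈ s, (c y • y -
        (if yv v = y then (1 : k) else 0) • y)) := by
      intro s
      induction s using Finset.induction_on with
      | empty => intro _; rw [Finset.sum_empty]; exact sm_zero one_pos
      | insert b s hb ih =>
        intro h
        rw [Finset.sum_insert hb]
        exact (h b (Finset.mem_insert_self _ _)).add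
          (ih fun i hi => h i (Finset.mem_insert_of_mem hi))
    refine hs _ fun y hy => ?_
    rw [← sub_smul]
    have h1 := hc y v (Set.mem_insert_of_mem _ hv)
    rw [if_neg hvv, if_neg hvv] at h1
    intro i
    rw [map_smul, Finsupp.smul_apply, smul_eq_mul, map_mul]
    have h2 := hJ1 v hv y (hJ.mem_toFinset.mp hy) i
    calc _ ≤ v.abv (c y - if yv v = y then (1 : k) else 0) * 1 :=
          mul_le_mul_of_nonneg_left h2 (v.abv.nonneg _)
      _ < 1 := by rw [mul_one]; exact h1
  · have hs : ∀ (s : Finset D), (∀ y ∈ s, Sm B v0 ε (c y • y)) →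
        Sm B v0 ε (∑ y ∈ s, c y • y) := by
      intro s
      induction s using Finset.induction_on with
      | empty => intro _; rw [Finset.sum_empty]; exact sm_zero hε
      | insert b s hb ih =>
        intro h
        rw [Finset.sum_insert hb]
        exact (h b (Finset.mem_insert_self _ _)).add
          (ih fun i hi => h i (Finset.mem_insert_of_mem hi))
    refine hs _ fun y hy => ?_
    have h1 := hc y v0 (Set.mem_insert _ _)
    rw [if_pos rfl, if_pos rfl, sub_zero] at h1
    have h2 : Bd B v0 (ε / (2 * M) * M) (c y • y) :=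
      Bd.smul h1.le (hM y (hJ.mem_toFinset.mp hy))
    refine h2.sm ?_
    have h3 : ε / (2 * M) * M = ε / 2 := by field_simp
    rw [h3]
    exact half_lt_self hε

/-- Almost everywhere a nonzero element is a unit. -/
theorem finite_not_un (B : Basis (Fin N) k D) (x : D) : {v : Place k | ¬ Un B v x}.Finite := by
  refine ((finite_nonint B x).union (finite_nonint B x⁻¹)).subset fun v hv => ?_
  by_contra hcon
  rw [Set.mem_union, not_or] at hcon
  simp only [Set.mem_ofPred_eq, not_not] at hcon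
  exact hv ⟨hcon.1, hcon.2⟩

end choice

end Vale.Agent.P011.H732D
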