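import Vale.Agent.P011.H732D.Asm1

/-!
# Assembly of the reduction to the centralizer: nearness
-/

open Module Polynomial

set_option linter.unusedSectionVars false

namespace Vale.Agent.P011.H732D

open Vale.Agent.P011.H738 Vale.Agent.P011.H271 Vale.Agent.P011.H305 Vale.Agent.P011.H698
open Vale.Agent.P011.H182 (na na_add_le na_nonneg na_smul na_const na_sub_le)
open Vale.Agent.P011.H704.HQ (bd_mul un_inv un_mul un_star un_of_near un_of_norm norm_le un_norm
  norm_close abv_form)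

section near

variable {k D : Type} [Field k] [DivisionRing D] [StarRing D] [Algebra k D] {N : ℕ}
  (B : Basis (Fin N) k D)

/-- The inverse near one. -/
theorem inv_near {A : AbsoluteValue k ℝ} {C : ℝ}
    (hm : ∀ x y, na B A (x * y) ≤ C * na B A x * na B A y) {g : D} (hg0 : g ≠ 0)
    (hg : C * na B A (g - 1) ≤ 1 / 2) : na B A (g⁻¹ - 1) ≤ 2 * na B A (g - 1) := by
  have e : g⁻¹ - 1 = -(g - 1) + -((g - 1) * (g⁻¹ - 1)) := by
    have h1 : g * g⁻¹ = 1 := mul_inv_cancel₀ hg0
    rw [mul_sub, sub_mul, h1]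
    noncomm_ring
  have hneg : ∀ z : D, na B A (-z) = na B A z := fun z => by
    have h1 : -z = (-1 : k) • z := by rw [neg_smul, one_smul]
    rw [h1, na_smul, AbsoluteValue.map_neg, map_one, one_mul]
  have h2 : na B A (g⁻¹ - 1) ≤ na B A (g - 1) + C * na B A (g - 1) * na B A (g⁻¹ - 1) := by
    conv_lhs => rw [e]
    refine (na_add_le _ _ _ _).trans ?_
    rw [hneg, hneg]
    exact add_le_add le_rfl (hm _ _)
  have h3 := na_nonneg B A (g⁻¹ - 1)
  have h4 : C * na B A (g - 1) * na B A (g⁻¹ - 1) ≤ 1 / 2 * na B A (g⁻¹ - 1) :=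
    mul_le_mul_of_nonneg_right hg h3
  linarith

/-- Conjugation by elements near one, with one constant for the conjugated element. -/
theorem conj_near (hst : ∀ (c : k) (x : D), star (c • x) = c • star x) (A : AbsoluteValue k ℝ)
    (I : D) {κ : ℝ} (hκ : 0 < κ) : ∃ η : ℝ, 0 < η ∧ ∀ g : D, g ≠ 0 → na B A (g - 1) < η →
      na B A (g * I * g⁻¹ - I) < κ ∧ na B A (star g - 1) < κ := by
  obtain ⟨C, hC1, hm, hs⟩ := na_const B A hst
  have hC0 : 0 < C := by linarith
  obtain ⟨M, hM⟩ : ∃ M : ℝ, M = na B A I + na B A 1 + 1 := ⟨_, rfl⟩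
  have hI := na_nonneg B A I
  have h1 := na_nonneg B A 1
  have hM0 : 0 < M := by rw [hM]; linarith
  obtain ⟨W, hW⟩ : ∃ W : ℝ, W = C * C * M * (1 + M) + C * M * 2 + C + 1 := ⟨_, rfl⟩
  have hW0 : 0 < W := by rw [hW]; positivity
  refine ⟨min (1 / (2 * C)) (κ / W), lt_min (by positivity) (by positivity), fun g hg0 hg => ?_⟩
  have hg1 := hg.trans_le (min_le_left _ _)
  have hg2 := hg.trans_le (min_le_right _ _)
  have hn := na_nonneg B A (g - 1)
  have hb : C * na B A (g - 1) ≤ 1 / 2 := by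
    have h2 : C * na B A (g - 1) ≤ C * (1 / (2 * C)) :=
      mul_le_mul_of_nonneg_left hg1.le hC0.le
    have h3 : C * (1 / (2 * C)) = 1 / 2 := by field_simp
    linarith
  have h5 := inv_near B hm hg0 hb
  have h6 : na B A g⁻¹ ≤ 1 + M := by
    have e : g⁻¹ = (g⁻¹ - 1) + 1 := by abel
    rw [e]
    refine (na_add_le _ _ _ _).trans ?_
    have h7 : na B A (g - 1) ≤ 1 / 2 := by nlinarith
    rw [hM]
    linarith
  have hWκ : na B A (g - 1) * W < κ := by
    rwa [lt_div_iff₀ hW0] at hg2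
  constructor
  · have e : g * I * g⁻¹ - I = (g - 1) * I * g⁻¹ + I * (g⁻¹ - 1) := by noncomm_ring
    rw [e]
    refine (na_add_le _ _ _ _).trans_lt ?_
    have h8 : na B A ((g - 1) * I * g⁻¹) ≤ C * (C * na B A (g - 1) * M) * (1 + M) := by
      refine (hm _ _).trans ?_
      have h9 : na B A ((g - 1) * I) ≤ C * na B A (g - 1) * M := by
        refine (hm _ _).trans ?_
        exact mul_le_mul_of_nonneg_left (by rw [hM]; linarith) (by positivity)
      have h10 := na_nonneg B A g⁻¹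
      calc C * na B A ((g - 1) * I) * na B A g⁻¹
          ≤ C * (C * na B A (g - 1) * M) * na B A g⁻¹ :=
            mul_le_mul_of_nonneg_right (mul_le_mul_of_nonneg_left h9 hC0.le) h10
        _ ≤ _ := mul_le_mul_of_nonneg_left h6 (by positivity)
    have h11 : na B A (I * (g⁻¹ - 1)) ≤ C * M * (2 * na B A (g - 1)) := by
      refine (hm _ _).trans ?_
      have h12 := na_nonneg B A (g⁻¹ - 1)
      calc C * na B A I * na B A (g⁻¹ - 1) ≤ C * M * na B A (g⁻¹ - 1) :=
            mul_le_mul_of_nonneg_right (mul_le_mul_of_nonneg_left (by rw [hM]; linarith) hC0.le) h12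
        _ ≤ _ := mul_le_mul_of_nonneg_left h5 (by positivity)
    have h13 : C * (C * na B A (g - 1) * M) * (1 + M) + C * M * (2 * na B A (g - 1)) ≤
        na B A (g - 1) * W := by
      rw [hW]
      nlinarith
    linarith
  · have e : star g - 1 = star (g - 1) := by rw [star_sub, star_one]
    rw [e]
    have h14 := hs (g - 1)
    have h15 : C * na B A (g - 1) ≤ na B A (g - 1) * W := by
      rw [hW]
      have h16 : 0 ≤ na B A (g - 1) * (C * C * M * (1 + M) + C * M * 2 + 1) := by positivity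
      nlinarith
    linarith

/-- The map `cc I` is continuous. -/
theorem cc_near (hst : ∀ (c : k) (x : D), star (c • x) = c • star x) (A : AbsoluteValue k ℝ)
    (I : D) {κ : ℝ} (hκ : 0 < κ) : ∃ η : ℝ, 0 < η ∧ ∀ z z' : D, na B A (z - z') < η →
      na B A (cc I z - cc I z') < κ := by
  obtain ⟨C, hC1, hm, -⟩ := na_const B A hst
  have hC0 : 0 < C := by linarith
  have hI := na_nonneg B A I
  refine ⟨κ / (2 * C * (na B A I + 1)), by positivity, fun z z' hz => ?_⟩
  have e : cc I z - cc I z' = (z - z') * I + I * (z - z') := by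
    unfold cc
    noncomm_ring
  rw [e]
  have h1 := hm (z - z') I
  have h2 := hm I (z - z')
  have h3 := na_nonneg B A (z - z')
  have h4 : na B A (z - z') * (2 * C * (na B A I + 1)) < κ := by
    rwa [lt_div_iff₀ (by positivity)] at hz
  refine (na_add_le _ _ _ _).trans_lt ?_
  nlinarith

/-- Multiplication near one. -/
theorem mul_near (hst : ∀ (c : k) (x : D), star (c • x) = c • star x) (A : AbsoluteValue k ℝ)
    (I : D) {κ : ℝ} (hκ : 0 < κ) : ∃ η : ℝ, 0 < η ∧ ∀ X j : D, na B A (X - 1) < η →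
      na B A (j - I) < η → na B A (X * j - I) < κ := by
  obtain ⟨C, hC1, hm, -⟩ := na_const B A hst
  have hC0 : 0 < C := by linarith
  have hI := na_nonneg B A I
  refine ⟨min 1 (κ / (C * (na B A I + 1) + 2)), lt_min one_pos (by positivity),
    fun X j hX hj => ?_⟩
  have hX2 := hX.trans_le (min_le_right _ _)
  have hj1 := hj.trans_le (min_le_left _ _)
  have hj2 := hj.trans_le (min_le_right _ _)
  have e : X * j - I = (X - 1) * j + (j - I) := by noncomm_ring
  rw [e]
  have h1 : na B A j ≤ na B A I + 1 := by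
    have e1 : j = (j - I) + I := by abel
    rw [e1]
    refine (na_add_le _ _ _ _).trans ?_
    linarith
  have h2 := hm (X - 1) j
  have h3 := na_nonneg B A (X - 1)
  have h4 := na_nonneg B A (j - I)
  have h5 : C * na B A (X - 1) * na B A j ≤ C * na B A (X - 1) * (na B A I + 1) :=
    mul_le_mul_of_nonneg_left h1 (by positivity)
  have h6 : 0 < κ / (C * (na B A I + 1) + 2) := by positivity
  have h7 : κ / (C * (na B A I + 1) + 2) * (C * (na B A I + 1) + 2) = κ := by field_simp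
  have h8 : C * na B A (X - 1) * (na B A I + 1) ≤
      C * (na B A I + 1) * (κ / (C * (na B A I + 1) + 2)) := by
    have h9 : C * (na B A I + 1) * na B A (X - 1) ≤
      C * (na B A I + 1) * (κ / (C * (na B A I + 1) + 2)) :=
      mul_le_mul_of_nonneg_left hX2.le (by positivity)
    linarith
  refine (na_add_le _ _ _ _).trans_lt ?_
  nlinarith

end near

section sm

variable {k D : Type} [Field k] [DivisionRing D] [StarRing D] [Algebra k D] {N : ℕ}
  {B : Basis (Fin N) k D} {v : Place k}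

theorem sm_of_na {η : ℝ} {x : D} (h : na B v.abv x < η) : Sm B v η x := fun i =>
  (Finset.single_le_sum (f := fun i => v.abv (B.repr x i))
    (fun _ _ => v.abv.nonneg _) (Finset.mem_univ i)).trans_lt h

theorem na_of_sm {η : ℝ} (hη : 0 < η) {x : D} (h : Sm B v (η / (N + 1)) x) :
    na B v.abv x < η := by
  have h1 : na B v.abv x ≤ ∑ _i : Fin N, η / (N + 1) := Finset.sum_le_sum fun i _ => (h i).le
  rw [Finset.sum_const, Finset.card_univ, Fintype.card_fin, nsmul_eq_mul] at h1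
  refine h1.trans_lt ?_
  have hN : (0 : ℝ) < N + 1 := by positivity
  rw [mul_div_assoc', div_lt_iff₀ hN]
  nlinarith

/-- A small element is bounded by a number less than one. -/
theorem exists_lt_bd {x : D} (h : Sm B v 1 x) : ∃ c : ℝ, 0 ≤ c ∧ c < 1 ∧ Bd B v c x := by
  classical
  have key : ∀ s : Finset (Fin N), ∃ c : ℝ, 0 ≤ c ∧ c < 1 ∧ ∀ i ∈ s, v.abv (B.repr x i) ≤ c := by
    intro s
    induction s using Finset.induction_on with
    | empty => exact ⟨0, le_rfl, one_pos, fun i hi => absurd hi (Finset.notMem_empty i)⟩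
    | insert b s hb ih =>
      obtain ⟨c, hc0, hc1, hc⟩ := ih
      refine ⟨max c (v.abv (B.repr x b)), hc0.trans (le_max_left _ _), max_lt hc1 (h b),
        fun i hi => ?_⟩
      rcases Finset.mem_insert.mp hi with rfl | hi
      · exact le_max_right _ _
      · exact (hc i hi).trans (le_max_left _ _)
  obtain ⟨c, hc0, hc1, hc⟩ := key Finset.univ
  exact ⟨c, hc0, hc1, fun i => hc i (Finset.mem_univ i)⟩

theorem sm_mul_bd (hG : Gd B v) {x y : D} (hx : Sm B v 1 x) (hy : Bd B v 1 y) :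
    Sm B v 1 (x * y) := by
  obtain ⟨c, hc0, hc1, hc⟩ := exists_lt_bd hx
  have h := hG.mul' hc0 zero_le_one hc hy
  rw [mul_one] at h
  exact h.sm hc1

theorem bd_mul_sm (hG : Gd B v) {x y : D} (hx : Bd B v 1 x) (hy : Sm B v 1 y) :
    Sm B v 1 (x * y) := by
  obtain ⟨c, hc0, hc1, hc⟩ := exists_lt_bd hy
  have h := hG.mul' zero_le_one hc0 hx hc
  rw [one_mul] at h
  exact h.sm hc1

theorem bd_smul {x : D} {c : k} (hc : v.abv c ≤ 1) (hx : Bd B v 1 x) : Bd B v 1 (c • x) := by
  have h := Bd.smul hc hx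
  rwa [one_mul] at h

theorem un_one (hG : Gd B v) : Un B v (1 : D) := ⟨hG.one, by rw [inv_one]; exact hG.one⟩

theorem un_scalar (hG : Gd B v) {c : k} (hc : v.abv c = 1) : Un B v (algebraMap k D c) := by
  refine ⟨?_, ?_⟩
  · rw [Algebra.algebraMap_eq_smul_one]
    exact bd_smul hc.le hG.one
  · rw [← map_inv₀, Algebra.algebraMap_eq_smul_one]
    refine bd_smul ?_ hG.one
    rw [map_inv₀, hc, inv_one]

theorem bd_cc (hG : Gd B v) {I z : D} (hI : Bd B v 1 I) (hz : Bd B v 1 z) : Bd B v 1 (cc I z) :=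
  (bd_mul hG hz hI).add (bd_mul hG hI hz)

/-- The factor `1 + μ j` is a unit at the inert places. -/
theorem un_gg (hst : ∀ (c : k) (x : D), star (c • x) = c • star x) (hG : Gd B v) {δ : kˣ} {j : D}
    (hj : j ∈ Xs D δ) (hjb : Bd B v 1 j) {μ : k} (hμ : v.abv μ ≤ 1)
    (hρ : v.abv (1 - μ ^ 2 * (δ : k)) = 1) : Un B v (gg j μ) := by
  have h1 : Bd B v 1 (gg j μ) := hG.one.add (bd_smul hμ hjb)
  refine ⟨h1, ?_⟩
  have hρ0 : (1 - μ ^ 2 * (δ : k)) ≠ 0 := by
    intro h
    rw [h, map_zero] at hρ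
    exact zero_ne_one hρ
  have hρD : algebraMap k D (1 - μ ^ 2 * (δ : k)) ≠ 0 := (_root_.map_ne_zero _).mpr hρ0
  have h2 := gg_mul_star hst hj μ
  have h0 : gg j μ ≠ 0 := by
    intro h
    rw [h, zero_mul] at h2
    exact hρD h2.symm
  have h3 : (gg j μ)⁻¹ = (1 - μ ^ 2 * (δ : k))⁻¹ • star (gg j μ) := by
    apply mul_left_cancel₀ h0
    rw [mul_inv_cancel₀ h0, mul_smul_comm, h2, Algebra.smul_def, ← map_mul,
      inv_mul_cancel₀ hρ0, map_one]
  rw [h3]
  refine bd_smul ?_ (hG.star' hst zero_le_one h1)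
  rw [map_inv₀, hρ, inv_one]

theorem near_ne (hG : Gd B v) {x y : D} (hx0 : x ≠ 0) (hx : Un B v x) (hxy : Sm B v 1 (y - x)) :
    y ≠ 0 := by
  rintro rfl
  have h1 := un_norm hG hx0 hx
  have h2 := norm_close hG hx.1 hxy
  rcases Nat.eq_zero_or_pos N with h0 | h0
  · subst h0
    apply hx0
    rw [← B.sum_repr x, Fin.sum_univ_zero]
  · have hfin : Module.Finite k D := Module.Finite.of_basis B
    have h3 : Algebra.norm k (0 : D) = 0 := by
      rw [Algebra.norm_eq_matrix_det B, map_zero]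
      have : Nonempty (Fin N) := ⟨⟨0, h0⟩⟩
      exact Matrix.det_zero
    rw [h3, zero_sub, AbsoluteValue.map_neg, h1] at h2
    exact lt_irrefl _ h2

/-- **The data of `y` at a place of `U₀`.** -/
theorem un_at (hst : ∀ (c : k) (x : D), star (c • x) = c • star x) (hG : Gd B v)
    (h2 : v.abv (2 : k) = 1) {δ : kˣ} (hδ : v.abv (δ : k) = 1) {I : D} (hI : I ∈ Xs D δ)
    (hIu : Un B v I) (h2D : (2 : D) ≠ 0) {y y' : D} (hy : y ∈ Wi I) (hyb : Bd B v 1 y')
    (hyy : Sm B v 1 (y - y')) (hy' : y' ∈ Wi I) (hsq : 1 + y' * y' ≠ 0)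
    (h1 : Un B v (1 + y')) (h3 : Un B v (1 + y' * y')) {X : D} (hX : Bd B v 1 X)
    (hz0 : (X + I * X * I⁻¹) * (1 + y' * y') + 2 * ((X - I * X * I⁻¹) * y') ≠ 0)
    (hz : Un B v ((X + I * X * I⁻¹) * (1 + y' * y') + 2 * ((X - I * X * I⁻¹) * y'))) :
    Bd B v 1 (jj I y) ∧ Un B v (cc I (1 * jj I y)) ∧ Un B v (cc I (X * jj I y)) := by
  have hI0 : I ≠ 0 := by
    rintro rfl
    have := hI.2
    rw [mul_zero] at this
    exact δ.ne_zero ((map_eq_zero (algebraMap k D)).mp this.symm)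
  have hyb' : Bd B v 1 y := by
    have e : y = (y - y') + y' := by abel
    rw [e]
    exact hyy.bd.add hyb
  have a1 : Un B v (1 + y) := un_of_near hG (one_add_ne h2D hI0 hy') h1 (by
    rwa [add_sub_add_left_eq_sub])
  have a2 : Un B v (1 - y) := by
    rw [← star_one_add hy]
    exact un_star hst hG a1
  have hsm : Sm B v 1 (y * y - y' * y') := by
    have e : y * y - y' * y' = (y - y') * y + y' * (y - y') := by noncomm_ring
    rw [e]
    exact (sm_mul_bd hG hyy hyb').add (bd_mul_sm hG hyb hyy)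
  have a3 : Un B v (1 + y * y) := un_of_near hG hsq h3 (by
    rwa [add_sub_add_left_eq_sub])
  have b2 : Un B v (2 : D) := by
    have := un_scalar (B := B) hG h2
    rwa [map_ofNat] at this
  have hδu : Un B v (algebraMap k D (δ : k)) := un_scalar hG hδ
  have hXI : Bd B v 1 (I * X * I⁻¹) := bd_mul hG (bd_mul hG hIu.1 hX) hIu.2
  have a4 : Un B v ((X + I * X * I⁻¹) * (1 + y * y) + 2 * ((X - I * X * I⁻¹) * y)) := by
    refine un_of_near hG hz0 hz ?_
    have e : (X + I * X * I⁻¹) * (1 + y * y) + 2 * ((X - I * X * I⁻¹) * y) -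
        ((X + I * X * I⁻¹) * (1 + y' * y') + 2 * ((X - I * X * I⁻¹) * y')) =
        (X + I * X * I⁻¹) * (y * y - y' * y') + 2 * ((X - I * X * I⁻¹) * (y - y')) := by
      noncomm_ring
    rw [e]
    exact (bd_mul_sm hG (hX.add hXI) hsm).add
      (bd_mul_sm hG b2.1 (bd_mul_sm hG (hX.sub hXI) hyy))
  refine ⟨?_, ?_, ?_⟩
  · exact bd_mul hG (bd_mul hG a1.1 hIu.1) a1.2
  · rw [cc_jj h2D hI hy]
    refine un_mul hG hδu (un_mul hG ?_ (un_mul hG (un_inv a1) (un_inv a2)))
    have e : (1 + I * 1 * I⁻¹) * (1 + y * y) + 2 * ((1 - I * 1 * I⁻¹) * y) =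
        2 * (1 + y * y) := by
      rw [mul_one, mul_inv_cancel₀ hI0, sub_self, zero_mul, mul_zero, add_zero]
      norm_num
    rw [e]
    exact un_mul hG b2 a3
  · rw [cc_jj h2D hI hy]
    exact un_mul hG hδu (un_mul hG a4 (un_mul hG (un_inv a1) (un_inv a2)))

end sm

end Vale.Agent.P011.H732D
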