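import Vale.Agent.P011.H732D.Asm2
import Vale.Agent.P011.H976.FF.RotF

/-!
# Assembly of the reduction to the centralizer: the units outside `S`, the two steps
-/

open Module Polynomial

set_option linter.unusedSectionVars false

namespace Vale.Agent.P011.H732D

open Vale.Agent.P011.H738 Vale.Agent.P011.H271 Vale.Agent.P011.H305 Vale.Agent.P011.H698
open Vale.Agent.P011.H63.FB (LSF incF)
open Vale.Agent.P011.H872.FF (XaF IsCentF kk om)
open Vale.Agent.P011.W (HasNrd)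
open Vale.Agent.P011.H182 (na na_add_le na_nonneg na_smul na_const na_sub_le)
open Vale.Agent.P011.H704.HQ (bd_mul un_inv un_mul un_star un_of_near un_of_nrd abv_form)
open Vale.Agent.P011.H496.NumF (cop_good exists_grid grid_good near_int_fam)

section units

variable {k K D L K' C : Type} [Field k] [Field K] [StarRing K]
    [DivisionRing D] [StarRing D] [Algebra k K] [Algebra k D] [Algebra K D] [IsScalarTower k K D]
    [Field L] [Algebra k L] [Field K'] [StarRing K']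
    [Algebra K K'] [DivisionRing C] [StarRing C] [Algebra L K'] [Algebra L C] [Algebra K' C]
    [IsScalarTower L K' C] {d : kˣ} {s : K} {t : D} {a : kˣ} {T : L} {ι : C →+* D}

/-- The data of a pencil at a place where `j` is integral. -/
theorem un_cc [GFF k] (hS : SetF k K D d s)
    (hSC : SetF L K' C (incF k L d) (algebraMap K K' s))
    (h : IsCentF k K D L K' C t a T ι) {m N : ℕ}
    (hdeg : finrank K D = (2 * m) ^ 2) (hC : finrank K' C = m ^ 2)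
    {B : Basis (Fin N) k D} {v : Place k} (hG : Gd B v)
    (hδ : v.abv ((a * d : kˣ) : k) = 1) (hns : a * d ∉ LSF v) {I : D}
    (hIb : Bd B v 1 I) {z : D} (hz : Bd B v 1 z) {c : C} (hc : ι c = cc I z) (hc0 : c ≠ 0)
    {p u : k} (hν : HasNrd K' m c (kk k K K' p + kk k K K' u * om K' s T)) :
    v.abv p ≤ 1 ∧ v.abv u ≤ 1 ∧ (Un B v (cc I z) ↔ (v.abv p = 1 ∨ v.abv u = 1)) := by
  have h1 := un_of_nrd hS hSC h rfl hdeg hC hG hδ hns hc0 hν (by
    rw [hc]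
    exact bd_cc hG hIb hz)
  rwa [hc] at h1

/-- **The point of the grid at a place of `U₀`.** -/
theorem theta_at [GFF k] (hS : SetF k K D d s)
    (hSC : SetF L K' C (incF k L d) (algebraMap K K' s))
    (h : IsCentF k K D L K' C t a T ι) {m N : ℕ} (hm : 0 < m)
    (hdeg : finrank K D = (2 * m) ^ 2) (hC : finrank K' C = m ^ 2)
    {B : Basis (Fin N) k D} {v : Place k} (hG : Gd B v)
    (hδ : v.abv ((a * d : kˣ) : k) = 1) (hns : a * d ∉ LSF v) {I : D}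
    (hIb : Bd B v 1 I) {j : D} (hj : Bd B v 1 j) (Θ : Finset k)
    (hi : ∀ x ∈ Θ, v.abv x ≤ 1) (hd : ∀ x ∈ Θ, ∀ y ∈ Θ, x ≠ y → v.abv (x - y) = 1)
    (hcard : 2 * m < Θ.card) {X : D} (hX : Bd B v 1 X)
    {c0 c1 c0' c1' : C} {U V U' V' : k[X]}
    (e1 : ι c1 = cc I (1 * j)) (e2 : ι c1' = cc I (X * j))
    (hU : U.natDegree ≤ m) (hV : V.natDegree ≤ m) (hU' : U'.natDegree ≤ m)
    (hV' : V'.natDegree ≤ m)
    (g1 : ∀ μ : k, ι (c0 + algebraMap K' C (kk k K K' μ) * c1) = cc I (1 * gg j μ))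
    (g2 : ∀ μ : k, ι (c0' + algebraMap K' C (kk k K K' μ) * c1') = cc I (X * gg j μ))
    (n1 : ∀ μ : k, HasNrd K' m (c0 + algebraMap K' C (kk k K K' μ) * c1)
        (kk k K K' (U.eval μ) + kk k K K' (V.eval μ) * om K' s T))
    (n2 : ∀ μ : k, HasNrd K' m (c0' + algebraMap K' C (kk k K K' μ) * c1')
        (kk k K K' (U'.eval μ) + kk k K K' (V'.eval μ) * om K' s T))
    (l1 : HasNrd K' m c1 (kk k K K' (U.coeff m) + kk k K K' (V.coeff m) * om K' s T))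
    (l2 : HasNrd K' m c1' (kk k K K' (U'.coeff m) + kk k K K' (V'.coeff m) * om K' s T))
    (hc1 : c1 ≠ 0) (hc1' : c1' ≠ 0) (hUV : IsCoprime U V) (hUV' : IsCoprime U' V')
    (u1 : Un B v (cc I (1 * j))) (u2 : Un B v (cc I (X * j))) :
    ∃ θ ∈ Θ, ∀ μ : k, v.abv (μ - θ) < 1 → Un B v (cc I (1 * gg j μ)) ∧
      Un B v (cc I (X * gg j μ)) := by
  have hgb : ∀ μ : k, v.abv μ ≤ 1 → Bd B v 1 (gg j μ) := fun μ hμ =>
    hG.one.add (bd_smul hμ hj)
  have b1 : ∀ μ : k, v.abv μ ≤ 1 → Bd B v 1 (1 * gg j μ) := fun μ hμ =>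
    bd_mul hG hG.one (hgb μ hμ)
  have b2 : ∀ μ : k, v.abv μ ≤ 1 → Bd B v 1 (X * gg j μ) := fun μ hμ =>
    bd_mul hG hX (hgb μ hμ)
  have k1 := fun μ (hμ : v.abv μ ≤ 1) => un_cc hS hSC h hdeg hC hG hδ hns hIb (b1 μ hμ) (g1 μ)
    (pencil_ne hS hSC h hm hC hUV (n1 μ)) (n1 μ)
  have k2 := fun μ (hμ : v.abv μ ≤ 1) => un_cc hS hSC h hdeg hC hG hδ hns hIb (b2 μ hμ) (g2 μ)
    (pencil_ne hS hSC h hm hC hUV' (n2 μ)) (n2 μ)
  have m1 := un_cc hS hSC h hdeg hC hG hδ hns hIb (bd_mul hG hG.one hj) e1 hc1 l1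
  have m2 := un_cc hS hSC h hdeg hC hG hδ hns hIb (bd_mul hG hX hj) e2 hc1' l2
  obtain ⟨θ, hθ, hθ'⟩ := exists_theta v hU hV hU' hV' Θ hi hd hcard
    (fun x hx => ⟨(k1 x (hi x hx)).1, (k1 x (hi x hx)).2.1⟩)
    (fun x hx => ⟨(k2 x (hi x hx)).1, (k2 x (hi x hx)).2.1⟩)
    (m1.2.2.mp u1) (m2.2.2.mp u2)
  refine ⟨θ, hθ, fun μ hμ => ?_⟩
  have hμ1 : v.abv μ ≤ 1 := by
    have e : μ = (μ - θ) + θ := by ring
    rw [e]
    exact (v.nonarch _ _).trans (max_le hμ.le (hi θ hθ))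
  exact ⟨(k1 μ hμ1).2.2.mpr (hθ' μ hμ).1, (k2 μ hμ1).2.2.mpr (hθ' μ hμ).2⟩

/-- The lead coefficient of the pencil does not vanish. -/
theorem lead_ne (hS : SetF k K D d s)
    (hSC : SetF L K' C (incF k L d) (algebraMap K K' s))
    (h : IsCentF k K D L K' C t a T ι) {m : ℕ} (hm : 0 < m) (hC : finrank K' C = m ^ 2) {c : C}
    {p u : k} (hp : p ≠ 0)
    (hc : HasNrd K' m c (kk k K K' p + kk k K K' u * om K' s T)) : c ≠ 0 := by
  rintro rfl
  have := hSC.fin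
  have := hSC.cen
  obtain ⟨g⟩ := Vale.Agent.P011S.exists_split (K := K') (D := C) hC (AlgebraicClosure K')
  have h1 := hc _ g
  have : Nonempty (Fin m) := ⟨⟨0, hm⟩⟩
  rw [map_zero, Matrix.det_zero] at h1
  have h2 := ((_root_.map_eq_zero (algebraMap K' (AlgebraicClosure K'))).mp h1.symm)
  exact hp (plane_inj hS hSC h h2).1

end units

section main

variable {k K D : Type} [Field k] [GFF k] [Field K] [StarRing K]
    [DivisionRing D] [StarRing D] [Algebra k K] [Algebra k D] [Algebra K D] [IsScalarTower k K D]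
    {d : kˣ} {s : K} {t : D} {a : kˣ}

/-- **The middle element.** For `x` near one, there is a similitude `g` such that the sums
`I + g I g⁻¹` and `g I g⁻¹ + x I x⁻¹` are units at the inert places outside `S`. -/
theorem exists_mid (hS : SetF k K D d s) (ht : t ∈ XaF D a)
    {L K' C : Type} [Field L] [Algebra k L] [Field K'] [StarRing K']
    [Algebra K K'] [DivisionRing C] [StarRing C] [Algebra L K'] [Algebra L C] [Algebra K' C]
    [IsScalarTower L K' C] {T : L} {ι : C →+* D}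
    (hSC : SetF L K' C (incF k L d) (algebraMap K K' s))
    (h : IsCentF k K D L K' C t a T ι) {m N : ℕ} (hm : 0 < m)
    (hdeg : finrank K D = (2 * m) ^ 2) (hC : finrank K' C = m ^ 2)
    (had : ¬ IsSquare ((a * d : kˣ) : k)) {Ω : Type} [Field Ω] [Algebra K Ω]
    (f : D →ₐ[K] Matrix (Fin (2 * m)) (Fin (2 * m)) Ω) (B : Basis (Fin N) k D)
    {I : D} (hI : I = algebraMap K D s * t)
    (hgg : ∀ y ∈ Wi I, ∀ μ : k, (f (gg (jj I y) μ)).det =
      algebraMap K Ω (algebraMap k K (1 - μ ^ 2 * ((a * d : kˣ) : k))) ^ m)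
    {S₁ : Set (Place k)} {J : Set D} (hS₁ : S₁.Finite) (hJ : J.Finite) (hJW : J ⊆ Wi I)
    (hJ0 : ∀ y ∈ J, 1 + y ≠ 0 ∧ 1 + y * y ≠ 0)
    (hloc : ∀ v ∉ S₁, ∀ x : D, x * star x = 1 → Bd B v 1 x →
        ∃ y ∈ J, Un B v (1 + y) ∧ Un B v (1 + y * y) ∧
          (x + I * x * I⁻¹) * (1 + y * y) + 2 * ((x - I * x * I⁻¹) * y) ≠ 0 ∧
          Un B v ((x + I * x * I⁻¹) * (1 + y * y) + 2 * ((x - I * x * I⁻¹) * y)))
    (S' : Finset (Place k)) (v0 : Place k) :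
    ∃ S : Finset (Place k), S' ⊆ S ∧ v0 ∈ S ∧
      (∀ v ∉ S, v.abv ((a * d : kˣ) : k) = 1 ∧ Gd B v) ∧
      ∀ κ : ℝ, 0 < κ → ∃ ε : ℝ, 0 < ε ∧ ∀ q ∉ S, a * d ∈ LSF q → ∀ x : D, x * star x = 1 →
        (f x).det = 1 → (∀ v ∈ S, Sm B v ε (x - 1)) → (∀ v ∉ S, v ≠ q → Bd B v 1 x) →
        ∃ i : D, i ∈ Xs D (a * d) ∧
          (∀ v ∈ S, Sm B v κ (i - I) ∧ Sm B v κ (x * I * x⁻¹ - I)) ∧
          (∀ v ∉ S, a * d ∉ LSF v → Un B v (I + i)) ∧
          (∀ v ∉ S, a * d ∉ LSF v → Un B v (i + x * I * x⁻¹)) := by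
  classical
  have hst : ∀ (c : k) (x : D), star (c • x) = c • star x := fun c x => hS.star_smulk c x
  have hI1 : I ∈ Xs D (a * d) := by
    rw [hI]
    exact I_mem hS ht
  have h2 : (2 : k) ≠ 0 := hS.two_ne
  have h2D : (2 : D) ≠ 0 := Vale.Agent.P011.H872.FF.two_neD hS
  have hδ0 : (a : k) * d ≠ 0 := mul_ne_zero a.ne_zero d.ne_zero
  have hIne : I ≠ 0 := by
    rintro rfl
    have := hI1.2
    rw [mul_zero] at this
    exact (a * d).ne_zero ((map_eq_zero (algebraMap k D)).mp this.symm)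
  have := NeFF.infinite_of_place v0
  obtain ⟨Θ, hΘ⟩ := exists_grid v0 (2 * m + 1)
  have hF6 : (⋃ y ∈ J, {v : Place k | ¬ Bd B v 1 y}).Finite :=
    hJ.biUnion fun y _ => finite_nonint B y
  have hfin : ((S' : Set (Place k)) ∪ {v0} ∪ S₁ ∪ {v : Place k | ¬ Gd B v} ∪
      {v : Place k | ¬ ((∀ x ∈ Θ, v.abv x ≤ 1) ∧
        ∀ x ∈ Θ, ∀ y ∈ Θ, x ≠ y → v.abv (x - y) = 1)} ∪
      {v : Place k | v.abv ((a * d : kˣ) : k) ≠ 1} ∪ {v : Place k | v.abv (2 : k) ≠ 1} ∪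
      {v : Place k | ¬ Un B v I} ∪ (⋃ y ∈ J, {v : Place k | ¬ Bd B v 1 y})).Finite :=
    ((((((((S'.finite_toSet).union (Set.finite_singleton v0)).union hS₁).union
      (finite_bad B)).union (grid_good Θ)).union (place_finite (a * d).ne_zero)).union
      (place_finite h2)).union (finite_not_un B I)).union hF6
  refine ⟨hfin.toFinset, ?_, ?_, ?_, ?_⟩
  · intro v hv
    rw [Set.Finite.mem_toFinset]
    simp only [Set.mem_union]
    exact Or.inl (Or.inl (Or.inl (Or.inl (Or.inl (Or.inl (Or.inl (Or.inl hv)))))))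
  · rw [Set.Finite.mem_toFinset]
    simp only [Set.mem_union]
    exact Or.inl (Or.inl (Or.inl (Or.inl (Or.inl (Or.inl (Or.inl (Or.inr rfl)))))))
  · intro v hv
    rw [Set.Finite.mem_toFinset] at hv
    simp only [Set.mem_union, not_or, Set.mem_ofPred_eq, not_not] at hv
    exact ⟨hv.1.1.1.2, hv.1.1.1.1.1.2⟩
  intro κ hκ
  obtain ⟨S, hSdef⟩ : ∃ S, S = hfin.toFinset := ⟨_, rfl⟩
  rw [← hSdef]
  have hout : ∀ v ∉ S, v ≠ v0 ∧ v ∉ S₁ ∧ Gd B v ∧ ((∀ x ∈ Θ, v.abv x ≤ 1) ∧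
        ∀ x ∈ Θ, ∀ y ∈ Θ, x ≠ y → v.abv (x - y) = 1) ∧ v.abv ((a * d : kˣ) : k) = 1 ∧
        v.abv (2 : k) = 1 ∧ Un B v I ∧ ∀ y ∈ J, Bd B v 1 y := by
    intro v hv
    rw [hSdef, Set.Finite.mem_toFinset] at hv
    simp only [Set.mem_union, not_or, Set.mem_ofPred_eq, not_not, Set.mem_iUnion, not_exists]
      at hv
    exact ⟨hv.1.1.1.1.1.1.1.2, hv.1.1.1.1.1.1.2, hv.1.1.1.1.1.2, hv.1.1.1.1.2, hv.1.1.1.2,
      hv.1.1.2, hv.1.2, fun y hy => hv.2 y hy⟩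
  have hv0S : v0 ∈ S := by
    by_contra hcon
    exact (hout v0 hcon).1 rfl
  clear hSdef hfin hF6
  -- the constants
  obtain ⟨κc, hκc, hcop⟩ := Vale.Agent.P011.H872.R4.cop_near_uv v0.abv h2 hδ0 m
  obtain ⟨ηc, hηc, hpoly⟩ := poly_near hS hSC h (m := m) hC B v0.abv hκc
  choose η1 hη1 hc1 using fun v : Place k => conj_near B hst v.abv I hκ
  obtain ⟨η2, hη2, hc2⟩ := cc_near B hst v0.abv I hηc
  obtain ⟨η3, hη3, hc3⟩ := mul_near B hst v0.abv I hη2
  obtain ⟨η4, hη4, hc4⟩ := conj_near B hst v0.abv I (lt_min hη3 hη2)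
  obtain ⟨η5, hη5, hη5'⟩ := Vale.Agent.P011.H167.Cn.exists_min_pos S.finite_toSet η1 hη1
  refine ⟨min (η5 / (N + 1)) (η4 / (N + 1)), lt_min (by positivity) (by positivity),
    fun q hq hqs x hx hdx hxS hxi => ?_⟩
  have hx0 : x ≠ 0 := left_ne_zero_of_mul_eq_one hx
  have hxinv : x⁻¹ = star x := (eq_inv_of_mul_eq_one_right hx).symm
  have hsx : star x * x = 1 := by rw [← hxinv, inv_mul_cancel₀ hx0]
  have hsx' : star x * star (star x) = 1 := by rw [star_star, hsx]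
  have hdsx : (f (star x)).det = 1 := by
    rw [← hxinv]
    have h1 : (f x⁻¹).det * (f x).det = 1 := by
      rw [← Matrix.det_mul, ← map_mul, inv_mul_cancel₀ hx0, map_one, Matrix.det_one]
    rwa [hdx, mul_one] at h1
  have hqv0 : v0 ≠ q := fun h0 => hq (h0 ▸ hv0S)
  have hxI : ∀ v ∈ S, Sm B v κ (x * I * x⁻¹ - I) := fun v hv => by
    have h1 : na B v.abv (x - 1) < η5 :=
      na_of_sm hη5 ((hxS v hv).mono (min_le_left _ _))
    exact sm_of_na (hc1 v x hx0 (h1.trans_le (hη5' v hv))).1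
  have hxv0 : na B v0.abv (star x - 1) < min η3 η2 :=
    (hc4 x hx0 (na_of_sm hη4 ((hxS v0 hv0S).mono (min_le_right _ _)))).2
  -- the places where `cc I (star x)` is not a unit
  obtain ⟨U₀, hU₀d⟩ : ∃ U₀ : Set (Place k), U₀ = {v | v ∉ S ∧ a * d ∉ LSF v ∧
    ¬ Un B v (cc I (star x))} := ⟨_, rfl⟩
  have hU₀ : U₀.Finite := (finite_not_un B (cc I (star x))).subset fun v hv => by
    rw [hU₀d] at hv
    exact hv.2.2
  have hU₀' : ∀ v ∈ U₀, v ∉ S ∧ a * d ∉ LSF v := fun v hv => by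
    rw [hU₀d] at hv
    exact ⟨hv.1, hv.2.1⟩
  have hU₀q : ∀ v, a * d ∉ LSF v → v ≠ q := fun v hv h0 => hv (h0 ▸ hqs)
  have hsxi : ∀ v ∉ S, v ≠ q → Bd B v 1 (star x) := fun v hv hvq =>
    (hout v hv).2.2.1.star' hst zero_le_one (hxi v hv hvq)
  have hyex : ∀ v ∈ U₀, ∃ y ∈ J, Un B v (1 + y) ∧ Un B v (1 + y * y) ∧
      (star x + I * star x * I⁻¹) * (1 + y * y) + 2 * ((star x - I * star x * I⁻¹) * y) ≠ 0 ∧
      Un B v ((star x + I * star x * I⁻¹) * (1 + y * y) +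
        2 * ((star x - I * star x * I⁻¹) * y)) := fun v hv =>
    hloc v (hout v (hU₀' v hv).1).2.1 (star x) hsx'
      (hsxi v (hU₀' v hv).1 (hU₀q v (hU₀' v hv).2))
  choose! yv hyv hyv1 hyv2 hyv3 hyv4 using hyex
  obtain ⟨y, hyW, hyU, hyv0⟩ := exists_y hst B hJ hJW v0 q hqv0 hU₀
    (fun h0 => (hU₀' v0 h0).1 hv0S) (fun h0 => hU₀q q (hU₀' q h0).2 rfl)
    (fun v hv y hy => (hout v (hU₀' v hv).1).2.2.2.2.2.2.2 y hy) yv hyv
    (ε := η4 / (N + 1)) (by positivity)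
  -- the element `j`
  obtain ⟨j, hjd⟩ : ∃ j, j = jj I y := ⟨_, rfl⟩
  have hj : j ∈ Xs D (a * d) := by
    rw [hjd]
    exact jj_mem h2D hI1 hyW
  have hggj : ∀ μ : k, (f (gg j μ)).det =
      algebraMap K Ω (algebraMap k K (1 - μ ^ 2 * ((a * d : kˣ) : k))) ^ m := fun μ => by
    rw [hjd]
    exact hgg y hyW μ
  have hjU : ∀ v ∈ U₀, Bd B v 1 j ∧ Un B v (cc I (1 * j)) ∧ Un B v (cc I (star x * j)) := by
    intro v hv
    obtain ⟨hvS, hvn⟩ := hU₀' v hv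
    obtain ⟨-, -, hG, -, hδv, h2v, hIu, hJb⟩ := hout v hvS
    rw [hjd]
    exact un_at hst hG h2v hδv hI1 hIu h2D hyW (hJb _ (hyv v hv)) (hyU v hv) (hJW (hyv v hv))
      (hJ0 _ (hyv v hv)).2 (hyv1 v hv) (hyv2 v hv) (hsxi v hvS (hU₀q v hvn)) (hyv3 v hv)
      (hyv4 v hv)
  -- nearness at `v0`
  have hjv0 : na B v0.abv (j - I) < min η3 η2 := by
    rw [hjd]
    refine (hc4 (1 + y) (one_add_ne h2D hIne hyW) ?_).1
    rw [add_sub_cancel_left]
    exact na_of_sm hη4 hyv0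
  -- the pencils
  obtain ⟨c0, c1, U, V, e0, e1, hU, hV, g1, n1, l1⟩ := exists_pencil hS hSC h ht hdeg hC f had hj
    hggj (X := 1) (by rw [star_one, mul_one]) (by rw [map_one, Matrix.det_one])
  obtain ⟨c0', c1', U', V', e0', e1', hU', hV', g1', n1', l1'⟩ := exists_pencil hS hSC h ht hdeg
    hC f had hj hggj (X := star x) hsx' hdsx
  rw [← hI] at e0 e1 e0' e1'
  simp only [← hI] at g1 g1'
  have hcc1 : cc I 1 = 2 * I := by
    unfold cc
    rw [one_mul, mul_one, two_mul]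
  have hccI : cc I I = algebraMap k D (2 * ((a : k) * d)) := by
    have h3 : I * I = algebraMap k D ((a : k) * d) := by
      have := hI1.2
      rwa [Units.val_mul] at this
    unfold cc
    rw [h3, two_mul, map_add]
  have hXne : ∀ X : D, na B v0.abv (X - 1) < min η3 η2 →
      na B v0.abv (cc I X - 2 * I) < ηc ∧
        na B v0.abv (cc I (X * j) - algebraMap k D (2 * ((a : k) * d))) < ηc := by
    intro X hX
    constructor
    · rw [← hcc1]
      exact hc2 X 1 (hX.trans_le (min_le_right _ _))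
    · rw [← hccI]
      exact hc2 _ _ (hc3 X j (hX.trans_le (min_le_left _ _)) (hjv0.trans_le (min_le_left _ _)))
  have hn1 : na B v0.abv ((1 : D) - 1) < min η3 η2 := by
    rw [sub_self, Vale.Agent.P011.H182.na_zero]
    exact lt_min hη3 hη2
  obtain ⟨p1, p2⟩ := hpoly c0 c1 U V hU hV n1 (by rw [e0, ← hI]; exact (hXne 1 hn1).1)
    (by rw [e1]; exact (hXne 1 hn1).2)
  obtain ⟨p1', p2'⟩ := hpoly c0' c1' U' V' hU' hV' n1' (by rw [e0', ← hI]; exact (hXne _ hxv0).1)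
    (by rw [e1']; exact (hXne _ hxv0).2)
  obtain ⟨-, hUV, hUm⟩ := hcop U V hU hV (fun l _ => p1 l) (fun l _ => p2 l)
  obtain ⟨-, hUV', hUm'⟩ := hcop U' V' hU' hV' (fun l _ => p1' l) (fun l _ => p2' l)
  have hc1ne := lead_ne hS hSC h hm hC hUm l1
  have hc1ne' := lead_ne hS hSC h hm hC hUm' l1'
  -- the points of the grid
  have hθex : ∀ v ∈ U₀, ∃ θ ∈ Θ, ∀ μ : k, v.abv (μ - θ) < 1 → Un B v (cc I (1 * gg j μ)) ∧
      Un B v (cc I (star x * gg j μ)) := by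
    intro v hv
    obtain ⟨hvS, hvn⟩ := hU₀' v hv
    obtain ⟨-, -, hG, ⟨hΘ1, hΘ2⟩, hδv, h2v, hIu, hJb⟩ := hout v hvS
    obtain ⟨hjb, u1, u2⟩ := hjU v hv
    exact theta_at hS hSC h hm hdeg hC hG hδv hvn hIu.1 hjb Θ hΘ1 hΘ2 (by omega)
      (hsxi v hvS (hU₀q v hvn)) e1 e1' hU hV hU' hV' g1 g1' n1 n1' l1 l1' hc1ne hc1ne' hUV hUV'
      u1 u2
  choose! θv hθv hθv' using hθex
  -- the exceptional places
  obtain ⟨W, hWd⟩ : ∃ W : Set (Place k), W = {v : Place k | ¬ ((∀ l, v.abv (U.coeff l) ≤ 1) ∧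
      (∀ l, v.abv (V.coeff l) ≤ 1) ∧ ∀ x : k, v.abv x ≤ 1 →
        v.abv (U.eval x) = 1 ∨ v.abv (V.eval x) = 1)} ∪
      {v : Place k | ¬ ((∀ l, v.abv (U'.coeff l) ≤ 1) ∧
      (∀ l, v.abv (V'.coeff l) ≤ 1) ∧ ∀ x : k, v.abv x ≤ 1 →
        v.abv (U'.eval x) = 1 ∨ v.abv (V'.eval x) = 1)} ∪ {v : Place k | ¬ Bd B v 1 j} :=
    ⟨_, rfl⟩
  have hW : W.Finite := by
    rw [hWd]
    exact ((cop_good hUV).union (cop_good hUV')).union (finite_nonint B j)
  have hWout : ∀ v ∉ W, (∀ x : k, v.abv x ≤ 1 → v.abv (U.eval x) = 1 ∨ v.abv (V.eval x) = 1) ∧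
      (∀ x : k, v.abv x ≤ 1 → v.abv (U'.eval x) = 1 ∨ v.abv (V'.eval x) = 1) ∧ Bd B v 1 j := by
    intro v hv
    rw [hWd] at hv
    simp only [Set.mem_union, not_or, Set.mem_ofPred_eq, not_not] at hv
    exact ⟨hv.1.1.2.2, hv.1.2.2.2, hv.2⟩
  -- the sizes at the places of `S` and at the exceptional places
  have hgne : ∀ μ : k, gg j μ ≠ 0 := fun μ => gg_ne hst had hj μ
  have hsmall : ∀ (v : Place k) (η : ℝ), 0 < η → ∃ η' : ℝ, 0 < η' ∧ ∀ μ : k, v.abv μ < η' →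
      na B v.abv (gg j μ - 1) < η ∧ na B v.abv (star x * gg j μ - star x) < η := by
    intro v η hη
    have hm1 := na_nonneg B v.abv j
    have hm2 := na_nonneg B v.abv (star x * j)
    refine ⟨η / (na B v.abv j + na B v.abv (star x * j) + 1), by positivity, fun μ hμ => ?_⟩
    rw [lt_div_iff₀ (by positivity)] at hμ
    have hμ0 := v.abv.nonneg μ
    constructor
    · have e : gg j μ - 1 = μ • j := by
        unfold gg
        abel
      rw [e, na_smul]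
      nlinarith
    · have e : star x * gg j μ - star x = μ • (star x * j) := by
        unfold gg
        rw [mul_add, mul_one, mul_smul_comm]
        abel
      rw [e, na_smul]
      nlinarith
  have hsizeS : ∀ v : Place k, ∃ η' : ℝ, 0 < η' ∧ ∀ μ : k, v.abv μ < η' →
      Sm B v κ (gg j μ * I * (gg j μ)⁻¹ - I) := by
    intro v
    obtain ⟨η', h1, h3⟩ := hsmall v (η1 v) (hη1 v)
    exact ⟨η', h1, fun μ hμ => sm_of_na (hc1 v (gg j μ) (hgne μ) (h3 μ hμ).1).1⟩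
  have hsizeW : ∀ v : Place k, ∃ η' : ℝ, 0 < η' ∧ ∀ μ : k, v.abv μ < η' →
      Sm B v 1 (gg j μ - 1) ∧ Sm B v 1 (cc I (1 * gg j μ) - cc I 1) ∧
        Sm B v 1 (cc I (star x * gg j μ) - cc I (star x)) := by
    intro v
    obtain ⟨ηa, ha1, ha2⟩ := cc_near B hst v.abv I one_pos
    obtain ⟨η', h1, h3⟩ := hsmall v (min ηa 1) (lt_min ha1 one_pos)
    refine ⟨η', h1, fun μ hμ => ⟨sm_of_na ((h3 μ hμ).1.trans_le (min_le_right _ _)),
      sm_of_na (ha2 _ _ ?_), sm_of_na (ha2 _ _ ((h3 μ hμ).2.trans_le (min_le_left _ _)))⟩⟩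
    rw [one_mul]
    exact (h3 μ hμ).1.trans_le (min_le_left _ _)
  choose ηS hηS hηS' using hsizeS
  choose ηW hηW hηW' using hsizeW
  obtain ⟨μ, hμ1, hμ2⟩ := near_int_fam (S := ((S : Set (Place k)) ∪ U₀ ∪ W) \ {q})
    (((S.finite_toSet.union hU₀).union hW).subset Set.sdiff_subset) q
    (fun h0 => h0.2 rfl) (fun v => if v ∈ U₀ then θv v else 0)
    (fun v => if v ∈ U₀ then 1 else min (ηS v) (ηW v)) (fun v _ => by
      split_ifs
      · exact one_pos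
      · exact lt_min (hηS v) (hηW v))
  have hSq : ∀ v ∈ S, v ≠ q := fun v hv h0 => hq (h0 ▸ hv)
  have hμS : ∀ v ∈ S, v.abv μ < ηS v := by
    intro v hv
    have h1 := hμ1 v ⟨Or.inl (Or.inl hv), hSq v hv⟩
    have h3 : v ∉ U₀ := fun h0 => (hU₀' v h0).1 hv
    simp only [if_neg h3, sub_zero] at h1
    exact h1.trans_le (min_le_left _ _)
  have hg0 := hgne μ
  have hρ0 := rho_ne had μ
  -- the units
  have key : ∀ v ∉ S, a * d ∉ LSF v → Un B v (gg j μ) ∧ Un B v (cc I (1 * gg j μ)) ∧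
      Un B v (cc I (star x * gg j μ)) := by
    intro v hvS hvn
    have hvq := hU₀q v hvn
    obtain ⟨-, -, hG, -, hδv, h2v, hIu, -⟩ := hout v hvS
    have hρv : v.abv μ ≤ 1 → v.abv (1 - μ ^ 2 * ((a * d : kˣ) : k)) = 1 := by
      intro hμv
      have h3 := abv_form h2 hδv hvn 1 μ
      rw [one_pow, map_one, max_eq_left hμv, one_pow] at h3
      rwa [mul_comm (μ ^ 2)]
    by_cases hvU : v ∈ U₀
    · have h1 := hμ1 v ⟨Or.inl (Or.inr hvU), hvq⟩
      simp only [if_pos hvU] at h1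
      have hμv : v.abv μ ≤ 1 := by
        have e : μ = (μ - θv v) + θv v := by ring
        rw [e]
        exact (v.nonarch _ _).trans (max_le h1.le ((hout v hvS).2.2.2.1.1 _ (hθv v hvU)))
      exact ⟨un_gg hst hG hj (hjU v hvU).1 hμv (hρv hμv), hθv' v hvU μ h1⟩
    by_cases hvW : v ∈ W
    · have h1 := hμ1 v ⟨Or.inr hvW, hvq⟩
      simp only [if_neg hvU, sub_zero] at h1
      obtain ⟨a1, a2, a3⟩ := hηW' v μ (h1.trans_le (min_le_right _ _))
      have b1 : Un B v (cc I 1) := by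
        rw [hcc1]
        refine un_mul hG ?_ hIu
        have := un_scalar (B := B) hG h2v
        rwa [map_ofNat] at this
      have b2 : Un B v (cc I (star x)) := by
        by_contra hcon
        apply hvU
        rw [hU₀d]
        exact ⟨hvS, hvn, hcon⟩
      have b0 : cc I 1 ≠ 0 := by
        rw [hcc1]
        exact mul_ne_zero h2D hIne
      have b3 : cc I (star x) ≠ 0 := by
        intro h0
        have h3 := (hXne _ hxv0).1
        rw [h0] at h3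
        have h4 := pencil_ne hS hSC h hm hC hUV' (n1' 0)
        apply h4
        apply h.inj
        rw [g1' 0, map_zero]
        unfold gg
        rw [zero_smul, add_zero, mul_one, h0]
      exact ⟨un_of_near hG one_ne_zero (un_one hG) a1, un_of_near hG b0 b1 a2,
        un_of_near hG b3 b2 a3⟩
    · obtain ⟨w1, w2, w3⟩ := hWout v hvW
      have hμv : v.abv μ ≤ 1 := hμ2 v (fun h0 => by
        rcases h0.1 with (h1 | h1) | h1
        · exact hvS h1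
        · exact hvU h1
        · exact hvW h1) hvq
      have hgb : Bd B v 1 (gg j μ) := hG.one.add (bd_smul hμv w3)
      refine ⟨un_gg hst hG hj w3 hμv (hρv hμv), ?_, ?_⟩
      · exact (un_cc hS hSC h hdeg hC hG hδv hvn hIu.1 (bd_mul hG hG.one hgb) (g1 μ)
          (pencil_ne hS hSC h hm hC hUV (n1 μ)) (n1 μ)).2.2.mpr (w1 μ hμv)
      · exact (un_cc hS hSC h hdeg hC hG hδv hvn hIu.1 (bd_mul hG (hsxi v hvS hvq) hgb) (g1' μ)
          (pencil_ne hS hSC h hm hC hUV' (n1' μ)) (n1' μ)).2.2.mpr (w2 μ hμv)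
  refine ⟨gg j μ * I * (gg j μ)⁻¹, conj_mem (gg_mul_star hst hj μ) (star_mul_gg hst hj μ) hρ0 hI1,
    fun v hv => ⟨hηS' v μ (hμS v hv), hxI v hv⟩, fun v hvS hvn => ?_, fun v hvS hvn => ?_⟩
  · obtain ⟨u1, u2, -⟩ := key v hvS hvn
    have e : I + gg j μ * I * (gg j μ)⁻¹ = cc I (1 * gg j μ) * (gg j μ)⁻¹ := by
      rw [one_mul, ← pair_one hg0, mul_inv_cancel_right₀ hg0]
    rw [e]
    exact un_mul (hout v hvS).2.2.1 u2 (un_inv u1)
  · obtain ⟨u1, -, u3⟩ := key v hvS hvn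
    have hvq := hU₀q v hvn
    have e : gg j μ * I * (gg j μ)⁻¹ + x * I * x⁻¹ =
        x * cc I (star x * gg j μ) * (gg j μ)⁻¹ := by
      rw [← pair_two hg0 hx, mul_inv_cancel_right₀ hg0]
    rw [e]
    have hxu : Un B v x := ⟨hxi v hvS hvq, by rw [hxinv]; exact hsxi v hvS hvq⟩
    exact un_mul (hout v hvS).2.2.1 (un_mul (hout v hvS).2.2.1 hxu u3) (un_inv u1)

end main

end Vale.Agent.P011.H732D
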