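import Vale.Agent.P011.H732D.Alg
import Vale.Agent.P011.H732D.Lag
import Vale.Agent.P011.H974.Jac
import Vale.Agent.P011.H872.FF.CopR4

/-!
# The reduced norm of the commuting part of `X (1 + μ j)` as a pair of polynomials in `μ`
-/

open Module Polynomial

set_option linter.unusedSectionVars false

namespace Vale.Agent.P011.H732D

open Vale.Agent.P011.H305 Vale.Agent.P011.H182
open Vale.Agent.P011.H63.FB (incF)
open Vale.Agent.P011.H872.FF (XaF IsCentF om kk star_kk star_om om_sq two_neK)
open Vale.Agent.P011.W (HasNrd)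
open Vale.Agent.P011.H505.Wang (hasNrd_of_det)
open Vale.Agent.P011.H872.R4 (uv uv_eval uv_deg)
open Vale.Agent.P011.H167.Cn (det_near)

theorem hasNrd_scal {K C : Type} [Field K] [DivisionRing C] [Algebra K C] {m : ℕ} (x : K) :
    HasNrd K m (algebraMap K C x) (x ^ m) := fun Ω _ _ f => by
  rw [AlgHom.commutes, Matrix.algebraMap_eq_diagonal, Matrix.det_diagonal]
  simp

section main

variable {k K D L K' C : Type} [Field k] [Field K] [StarRing K]
    [DivisionRing D] [StarRing D] [Algebra k K] [Algebra k D] [Algebra K D] [IsScalarTower k K D]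
    [Field L] [Algebra k L] [Field K'] [StarRing K']
    [Algebra K K'] [DivisionRing C] [StarRing C] [Algebra L K'] [Algebra L C] [Algebra K' C]
    [IsScalarTower L K' C] {d : kˣ} {s : K} {t : D} {a : kˣ} {T : L} {ι : C →+* D}

theorem plane_mul (hS : SetF k K D d s) (h : IsCentF k K D L K' C t a T ι) (p u p' u' : k) :
    (kk k K K' p + kk k K K' u * om K' s T) * (kk k K K' p' + kk k K K' u' * om K' s T) =
      kk k K K' (p * p' + a * d * (u * u')) + kk k K K' (p * u' + u * p') * om K' s T := by
  have h1 := om_sq hS h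
  simp only [map_add, map_mul] at h1 ⊢
  linear_combination (kk k K K' u * kk k K K' u') * h1

theorem plane_pow (hS : SetF k K D d s) (h : IsCentF k K D L K' C t a T ι) (p u : k) (m : ℕ) :
    ∃ p' u' : k, (kk k K K' p + kk k K K' u * om K' s T) ^ m =
      kk k K K' p' + kk k K K' u' * om K' s T := by
  induction m with
  | zero => exact ⟨1, 0, by rw [pow_zero, map_one, map_zero, zero_mul, add_zero]⟩
  | succ m ih =>
    obtain ⟨p', u', h1⟩ := ih
    exact ⟨_, _, by rw [pow_succ, h1, plane_mul hS h]⟩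

theorem om_ne (hS : SetF k K D d s) (h : IsCentF k K D L K' C t a T ι) : om K' s T ≠ 0 := by
  intro h0
  have h7 := om_sq hS h
  rw [h0, mul_zero] at h7
  exact (_root_.map_ne_zero (kk k K K')).mpr (mul_ne_zero a.ne_zero d.ne_zero) h7.symm

theorem plane_inj (hS : SetF k K D d s) (hSC : SetF L K' C (incF k L d) (algebraMap K K' s))
    (h : IsCentF k K D L K' C t a T ι) {p u : k}
    (hpu : kk k K K' p + kk k K K' u * om K' s T = 0) : p = 0 ∧ u = 0 := by
  have h2 := congrArg star hpu
  rw [star_add, star_mul, star_om hSC, star_kk hSC h, star_kk hSC h, star_zero] at h2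
  have h3 : (2 : K') ≠ 0 := two_neK hSC
  have h4 : kk k K K' p = 0 := by
    apply mul_left_cancel₀ h3
    linear_combination hpu + h2
  have h5 : p = 0 := (_root_.map_eq_zero _).mp h4
  refine ⟨h5, ?_⟩
  rw [h4, zero_add] at hpu
  rcases mul_eq_zero.mp hpu with h8 | h8
  · exact (_root_.map_eq_zero _).mp h8
  · exact absurd h8 (om_ne hS h)

theorem plane_uniq (hS : SetF k K D d s) (hSC : SetF L K' C (incF k L d) (algebraMap K K' s))
    (h : IsCentF k K D L K' C t a T ι) {p u p' u' : k}
    (hpu : kk k K K' p + kk k K K' u * om K' s T = kk k K K' p' + kk k K K' u' * om K' s T) :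
    p = p' ∧ u = u' := by
  have h1 := plane_inj hS hSC h (p := p - p') (u := u - u') (by
    rw [map_sub, map_sub]
    linear_combination hpu)
  exact ⟨sub_eq_zero.mp h1.1, sub_eq_zero.mp h1.2⟩

/-- The image of the element `om`. -/
theorem iota_om (h : IsCentF k K D L K' C t a T ι) :
    ι (algebraMap K' C (om K' s T)) = algebraMap K D s * t := by
  rw [om, map_mul, map_mul, h.jK, ← IsScalarTower.algebraMap_apply L K' C, h.jT]

theorem iota_kk (h : IsCentF k K D L K' C t a T ι) (c : k) :
    ι (algebraMap K' C (kk k K K' c)) = algebraMap k D c := by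
  rw [IsScalarTower.algebraMap_apply k K D]
  exact h.jK _

theorem I_mem (hS : SetF k K D d s) (ht : t ∈ XaF D a) :
    algebraMap K D s * t ∈ Xs D (a * d) := by
  have hsD : star (algebraMap K D s) = -algebraMap K D s := by
    rw [Vale.Agent.P011.H872.FF.star_algF hS, hS.star_s, map_neg]
  refine ⟨?_, ?_⟩
  · rw [star_mul, ht.1, hsD, mul_neg, ← Algebra.commutes]
  · have h1 : algebraMap K D s * algebraMap K D s = algebraMap k D d := by
      rw [← map_mul, ← pow_two, hS.sq, ← IsScalarTower.algebraMap_apply]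
    calc algebraMap K D s * t * (algebraMap K D s * t)
        = algebraMap K D s * (t * algebraMap K D s) * t := by noncomm_ring
      _ = (algebraMap K D s * algebraMap K D s) * (t * t) := by
        rw [← Algebra.commutes s t]; noncomm_ring
      _ = _ := by rw [h1, ht.2, ← map_mul, Units.val_mul, mul_comm]

/-- **The reduced norm of the commuting part of a similitude.** -/
theorem exists_plane [Infinite K] (hS : SetF k K D d s)
    (hSC : SetF L K' C (incF k L d) (algebraMap K K' s))
    (h : IsCentF k K D L K' C t a T ι) (ht : t ∈ XaF D a) {n m : ℕ} (hn : n = 2 * m)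
    (hdeg : finrank K D = n ^ 2) (hC : finrank K' C = m ^ 2) {Ω : Type} [Field Ω]
    [Algebra K Ω] (f : D →ₐ[K] Matrix (Fin n) (Fin n) Ω) {x : D} {ρ : k}
    (hρ : ρ ≠ 0) (hx : x * star x = algebraMap k D ρ)
    (hdet : (f x).det = algebraMap K Ω (algebraMap k K ρ) ^ m) {c : C}
    (hc : ι c = cc (algebraMap K D s * t) x) :
    ∃ p u : k, HasNrd K' m c (kk k K K' p + kk k K K' u * om K' s T) := by
  have := hS.fin
  have := hS.cen
  have := hSC.fin
  have := hSC.cen
  have h2 : (2 : K') ≠ 0 := two_neK hSC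
  have h2D : (2 : D) ≠ 0 := Vale.Agent.P011.H872.FF.two_neD hS
  have hom := om_ne hS h
  have h2o : 2 * om K' s T ≠ 0 := mul_ne_zero h2 hom
  obtain ⟨e, he⟩ : ∃ e : C, e = algebraMap K' C (2 * om K' s T)⁻¹ * c := ⟨_, rfl⟩
  have hce : c = algebraMap K' C (2 * om K' s T) * e := by
    rw [he, ← mul_assoc, ← map_mul, mul_inv_cancel₀ h2o, map_one, one_mul]
  have ht0 : t ≠ 0 := by
    rintro rfl
    have := ht.2
    rw [mul_zero] at this
    exact a.ne_zero ((map_eq_zero (algebraMap k D)).mp this.symm)
  have hs0 : algebraMap K D s ≠ 0 := (_root_.map_ne_zero _).mpr hS.s_ne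
  have hkey : 2 * ι e * t = x * t + t * x := by
    have h3 : (2 * (algebraMap K D s * t)) * ι e = cc (algebraMap K D s * t) x := by
      rw [← hc, hce, map_mul, map_mul, map_mul, iota_om h]
      congr 1
      rw [map_ofNat, map_ofNat]
    have h4 : cc (algebraMap K D s * t) x = algebraMap K D s * (x * t + t * x) := by
      unfold cc
      rw [← mul_assoc x, ← Algebra.commutes s x]
      noncomm_ring
    rw [h4] at h3
    have h5 : algebraMap K D s * (2 * (t * ι e)) = algebraMap K D s * (x * t + t * x) := by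
      rw [← h3, two_mul, two_mul]
      noncomm_ring
    have h6 := mul_left_cancel₀ hs0 h5
    rw [← h6, mul_assoc, (h.comm e)]
  obtain ⟨p, u, hpu⟩ := Vale.Agent.P011.H974.Jac.jac_pu hS hSC h ht.1 hn hdeg hC f hρ hx hdet hkey
  obtain ⟨p', u', h'⟩ := plane_pow hS h 0 2 m
  have h7 : 2 * om K' s T = kk k K K' 0 + kk k K K' 2 * om K' s T := by
    rw [map_zero, zero_add, map_ofNat]
  have h8 := (hasNrd_scal (C := C) (m := m) (2 * om K' s T)).mul hpu
  rw [h7, h', plane_mul hS h] at h8
  rw [hce, h7]
  exact ⟨_, _, h8⟩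

/-- The coordinates of the reduced norm are continuous. -/
theorem pu_near_at (hS : SetF k K D d s)
    (hSC : SetF L K' C (incF k L d) (algebraMap K K' s))
    (h : IsCentF k K D L K' C t a T ι) {m N : ℕ} (hC : finrank K' C = m ^ 2)
    (B : Basis (Fin N) k D) (A : AbsoluteValue k ℝ) {ε : ℝ} (hε : 0 < ε) {e0 : C} {p0 u0 : k}
    (h0 : HasNrd K' m e0 (kk k K K' p0 + kk k K K' u0 * om K' s T)) :
    ∃ η : ℝ, 0 < η ∧ ∀ (e : C) (p u : k),
      HasNrd K' m e (kk k K K' p + kk k K K' u * om K' s T) →
      na B A (ι e - ι e0) < η → A (p - p0) < ε ∧ A (u - u0) < ε := by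
  have := hSC.fin
  have := hSC.cen
  obtain ⟨g⟩ := Vale.Agent.P011S.exists_split (K := K') (D := C) hC (AlgebraicClosure K')
  let algK : Algebra k K' := (kk k K K').toAlgebra
  let algC : Algebra k C := ((algebraMap K' C).comp (kk k K K')).toAlgebra' fun c x =>
    Algebra.commutes _ _
  have tow : IsScalarTower k K' (AlgebraicClosure K') := inferInstance
  have hck : ∀ c : k, ι (algebraMap K' C (kk k K K' c)) = algebraMap k D c := iota_kk h
  let jl : C →ₗ[k] D :=
    { toFun := ι
      map_add' := map_add ι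
      map_smul' := fun c x => by
        rw [RingHom.id_apply, Algebra.smul_def, Algebra.smul_def, map_mul]
        exact congrArg (· * ι x) (hck c) }
  obtain ⟨r, hr⟩ := jl.exists_leftInverse_of_injective (LinearMap.ker_eq_bot.mpr h.inj)
  have hr' : ∀ x : C, r (ι x) = x := fun x => LinearMap.congr_fun hr x
  let gl : C →ₗ[k] Matrix (Fin m) (Fin m) (AlgebraicClosure K') :=
    { toFun := g
      map_add' := map_add g
      map_smul' := fun c x => by
        rw [RingHom.id_apply, Algebra.smul_def, map_mul]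
        change g (algebraMap K' C (kk k K K' c)) * g x = _
        rw [AlgHom.commutes, ← Algebra.smul_def]
        ext i l
        rw [Matrix.smul_apply, Matrix.smul_apply, Algebra.smul_def, Algebra.smul_def,
          IsScalarTower.algebraMap_apply k K' (AlgebraicClosure K')]
        rfl }
  let il : k × k →ₗ[k] K' :=
    { toFun := fun x => kk k K K' x.1 + kk k K K' x.2 * om K' s T
      map_add' := fun x y => by
        rw [Prod.fst_add, Prod.snd_add, map_add, map_add]; ring
      map_smul' := fun c x => by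
        rw [Prod.smul_fst, Prod.smul_snd, smul_eq_mul, smul_eq_mul, map_mul, map_mul,
          RingHom.id_apply, Algebra.smul_def]
        change _ = kk k K K' c * _
        ring }
  have hker : LinearMap.ker il = ⊥ := by
    rw [LinearMap.ker_eq_bot']
    rintro ⟨x, y⟩ hxy
    obtain ⟨h1, h2⟩ := plane_inj hS hSC h (p := x) (u := y) hxy
    rw [h1, h2]
    rfl
  obtain ⟨r2, hr2⟩ := il.exists_leftInverse_of_injective hker
  have hr2' : ∀ p u : k, r2 (kk k K K' p + kk k K K' u * om K' s T) = (p, u) := fun p u =>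
    LinearMap.congr_fun hr2 (p, u)
  obtain ⟨ρ, hρ'⟩ := (Algebra.linearMap K' (AlgebraicClosure K')).exists_leftInverse_of_injective
    (LinearMap.ker_eq_bot.mpr (algebraMap K' (AlgebraicClosure K')).injective)
  have hρ : ∀ c, ρ (algebraMap K' (AlgebraicClosure K') c) = c := fun c =>
    LinearMap.congr_fun hρ' c
  let Λ : AlgebraicClosure K' →ₗ[k] k × k := r2.comp (ρ.restrictScalars k)
  have hΛ : ∀ p u : k, Λ (algebraMap K' (AlgebraicClosure K')
      (kk k K K' p + kk k K K' u * om K' s T)) = (p, u) := fun p u => by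
    change r2 (ρ _) = _
    rw [hρ, hr2']
  obtain ⟨η₁, hη₁, H1⟩ := det_near B (gl.comp r) ((LinearMap.fst k k k).comp Λ) A (ι e0) hε
  obtain ⟨η₂, hη₂, H2⟩ := det_near B (gl.comp r) ((LinearMap.snd k k k).comp Λ) A (ι e0) hε
  refine ⟨min η₁ η₂, lt_min hη₁ hη₂, fun e p u hν hne => ?_⟩
  have e1 : ((gl.comp r) (ι e)).det = algebraMap K' (AlgebraicClosure K')
      (kk k K K' p + kk k K K' u * om K' s T) := by
    change (g (r (ι e))).det = _
    rw [hr', hν _ g]
  have e2 : ((gl.comp r) (ι e0)).det = algebraMap K' (AlgebraicClosure K')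
      (kk k K K' p0 + kk k K K' u0 * om K' s T) := by
    change (g (r (ι e0))).det = _
    rw [hr', h0 _ g]
  have h1 := H1 _ (hne.trans_le (min_le_left _ _))
  have h2 := H2 _ (hne.trans_le (min_le_right _ _))
  have f1 : ∀ z, ((LinearMap.fst k k k).comp Λ) z = (Λ z).1 := fun _ => rfl
  have f2 : ∀ z, ((LinearMap.snd k k k).comp Λ) z = (Λ z).2 := fun _ => rfl
  rw [e1, e2, f1, f1, hΛ, hΛ] at h1
  rw [e1, e2, f2, f2, hΛ, hΛ] at h2
  exact ⟨h1, h2⟩

/-- **The polynomials of a pencil** with reduced norms in the plane `k + k om`. -/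
theorem exists_poly [Infinite k] (hSC : SetF L K' C (incF k L d) (algebraMap K K' s)) {m : ℕ} (hC : finrank K' C = m ^ 2) {c0 c1 : C}
    (hpl : ∀ μ : k, ∃ p u : k, HasNrd K' m (c0 + algebraMap K' C (kk k K K' μ) * c1)
      (kk k K K' p + kk k K K' u * om K' s T)) :
    ∃ U V : k[X], U.natDegree ≤ m ∧ V.natDegree ≤ m ∧
      (∀ μ : k, HasNrd K' m (c0 + algebraMap K' C (kk k K K' μ) * c1)
        (kk k K K' (U.eval μ) + kk k K K' (V.eval μ) * om K' s T)) ∧
      HasNrd K' m c1 (kk k K K' (U.coeff m) + kk k K K' (V.coeff m) * om K' s T) := by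
  have := hSC.fin
  have := hSC.cen
  have : Infinite K' := Infinite.of_injective _ (kk k K K').injective
  obtain ⟨g⟩ := Vale.Agent.P011S.exists_split (K := K') (D := C) hC (AlgebraicClosure K')
  let algK : Algebra k K' := (kk k K K').toAlgebra
  have tow : IsScalarTower k K' (AlgebraicClosure K') := inferInstance
  have halg : ∀ c : k, algebraMap k (AlgebraicClosure K') c =
      algebraMap K' (AlgebraicClosure K') (kk k K K' c) := fun c =>
    IsScalarTower.algebraMap_apply k K' (AlgebraicClosure K') c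
  have hg : ∀ μ : k, g (c0 + algebraMap K' C (kk k K K' μ) * c1) =
      g c0 + algebraMap k (AlgebraicClosure K') μ • g c1 := by
    intro μ
    rw [map_add, map_mul, AlgHom.commutes, halg]
    congr 1
    rw [← Algebra.smul_def]
    ext i l
    rw [Matrix.smul_apply, Matrix.smul_apply, Algebra.smul_def, smul_eq_mul]
  obtain ⟨U, V, h1, h2, h3, h4⟩ := exists_UV (k := k)
    (algebraMap K' (AlgebraicClosure K') (om K' s T)) (g c0) (g c1) (fun μ => by
      obtain ⟨p, u, hpu⟩ := hpl μ
      refine ⟨p, u, ?_⟩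
      rw [← hg, hpu _ g, halg, halg, map_add, map_mul])
  refine ⟨U, V, h1, h2, fun μ => hasNrd_of_det hC g ?_, hasNrd_of_det hC g ?_⟩
  · rw [hg, h3, halg, halg, map_add, map_mul]
  · rw [h4, halg, halg, map_add, map_mul]

/-- The polynomials are close to those of `2 om (1 + om X)`. -/
theorem poly_near [Infinite k] (hS : SetF k K D d s)
    (hSC : SetF L K' C (incF k L d) (algebraMap K K' s))
    (h : IsCentF k K D L K' C t a T ι) {m N : ℕ} (hC : finrank K' C = m ^ 2)
    (B : Basis (Fin N) k D) (A : AbsoluteValue k ℝ) {κ : ℝ} (hκ : 0 < κ) :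
    ∃ η : ℝ, 0 < η ∧ ∀ (c0 c1 : C) (U V : k[X]), U.natDegree ≤ m → V.natDegree ≤ m →
      (∀ μ : k, HasNrd K' m (c0 + algebraMap K' C (kk k K K' μ) * c1)
        (kk k K K' (U.eval μ) + kk k K K' (V.eval μ) * om K' s T)) →
      na B A (ι c0 - 2 * (algebraMap K D s * t)) < η →
      na B A (ι c1 - algebraMap k D (2 * (a * d))) < η →
      (∀ l, A (U.coeff l - (H872.R4.uv ((a : k) * d) m).1.coeff l) < κ) ∧
        ∀ l, A (V.coeff l - (H872.R4.uv ((a : k) * d) m).2.coeff l) < κ := by
  obtain ⟨x, η1, -, hη1, hx⟩ := coeff_small A m hκ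
  let algK : Algebra k K' := (kk k K K').toAlgebra
  have hom : om K' s T * om K' s T = algebraMap k K' ((a : k) * d) := om_sq hS h
  have hbase : ∀ μ : k, HasNrd K' m (algebraMap K' C (2 * om K' s T) +
      algebraMap K' C (kk k K K' μ) * algebraMap K' C (kk k K K' (2 * (a * d))))
      (kk k K K' ((H872.R4.uv ((a : k) * d) m).1.eval μ) +
        kk k K K' ((H872.R4.uv ((a : k) * d) m).2.eval μ) * om K' s T) := by
    intro μ
    have h1 := uv_eval (δ := (a : k) * d) hom (kk k K K' μ) m
    have h2 : ∀ P : k[X], aeval (kk k K K' μ) P = kk k K K' (P.eval μ) := fun P =>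
      Polynomial.aeval_algebraMap_apply_eq_algebraMap_eval μ P
    rw [h2, h2] at h1
    rw [h1, ← map_mul, ← map_add]
    have h3 : 2 * om K' s T * (1 + om K' s T * kk k K K' μ) =
        2 * om K' s T + kk k K K' μ * kk k K K' (2 * (a * d)) := by
      have h4 : kk k K K' (2 * (a * d)) = 2 * (om K' s T * om K' s T) := by
        rw [map_mul, map_ofNat]
        exact congrArg (2 * ·) hom.symm
      rw [h4]
      ring
    rw [h3]
    exact hasNrd_scal _
  choose η hη hne using fun i => pu_near_at hS hSC h hC B A hη1 (hbase (x i))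
  obtain ⟨η', hη', hle⟩ : ∃ η' : ℝ, 0 < η' ∧ ∀ i, η' * (1 + A (x i)) ≤ η i := by
    refine ⟨Finset.univ.inf' Finset.univ_nonempty fun i => η i / (1 + A (x i)), ?_, fun i => ?_⟩
    · rw [Finset.lt_inf'_iff]
      intro i _
      have := A.nonneg (x i)
      have := hη i
      positivity
    · have h1 : 0 < 1 + A (x i) := by
        have := A.nonneg (x i)
        linarith
      rw [← le_div_iff₀ h1]
      exact Finset.inf'_le _ (Finset.mem_univ i)
  refine ⟨η', hη', fun c0 c1 U V hU hV hN h0 h1 => ?_⟩
  have hsD : ∀ (c : k) (z : D), algebraMap k D c * z = c • z := fun c z =>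
    (Algebra.smul_def c z).symm
  have hval : ∀ i, A (U.eval (x i) - (H872.R4.uv ((a : k) * d) m).1.eval (x i)) < η1 ∧
      A (V.eval (x i) - (H872.R4.uv ((a : k) * d) m).2.eval (x i)) < η1 := by
    intro i
    refine hne i _ _ _ (hN (x i)) ?_
    have e : ι (c0 + algebraMap K' C (kk k K K' (x i)) * c1) -
        ι (algebraMap K' C (2 * om K' s T) + algebraMap K' C (kk k K K' (x i)) *
          algebraMap K' C (kk k K K' (2 * (a * d)))) =
        (ι c0 - 2 * (algebraMap K D s * t)) +
          x i • (ι c1 - algebraMap k D (2 * (a * d))) := by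
      have e1 : ι (algebraMap K' C (kk k K K' (x i)) * c1) = algebraMap k D (x i) * ι c1 := by
        rw [map_mul, iota_kk h]
      have e2 : ι (algebraMap K' C (2 * om K' s T)) = 2 * (algebraMap K D s * t) := by
        rw [map_mul, map_mul, iota_om h, map_ofNat, map_ofNat]
      have e3 : ι (algebraMap K' C (kk k K K' (x i)) *
          algebraMap K' C (kk k K K' (2 * (a * d)))) =
          algebraMap k D (x i) * algebraMap k D (2 * (a * d)) := by
        rw [map_mul, iota_kk h, iota_kk h]
      rw [map_add, map_add, e1, e2, e3, smul_sub, ← hsD, ← hsD]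
      abel
    rw [e]
    refine (na_add_le _ _ _ _).trans_lt ?_
    rw [na_smul]
    have h2 := A.nonneg (x i)
    have h3 := hle i
    have h4 := na_nonneg B A (ι c1 - algebraMap k D (2 * (a * d)))
    have h6 : A (x i) * na B A (ι c1 - algebraMap k D (2 * (a * d))) ≤ A (x i) * η' :=
      mul_le_mul_of_nonneg_left h1.le h2
    nlinarith
  obtain ⟨d1, d2⟩ := uv_deg ((a : k) * d) m
  refine ⟨fun l => ?_, fun l => ?_⟩
  · rw [← coeff_sub]
    refine hx _ ((natDegree_sub_le _ _).trans (max_le hU d1)) (fun i => ?_) l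
    rw [eval_sub]
    exact (hval i).1
  · rw [← coeff_sub]
    refine hx _ ((natDegree_sub_le _ _).trans (max_le hV d2)) (fun i => ?_) l
    rw [eval_sub]
    exact (hval i).2

end main

end Vale.Agent.P011.H732D
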