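import Vale.Agent.P011.H974.DblF
import Vale.Agent.P011.H872.FF.MPThree
import Vale.Agent.P011.H511.SymF
import Vale.Agent.P011.H519.FFAll

/-!
# Function fields: degree six

Doubling the degree with the theorem in degree three gives the conjecture in degree six over the
global function fields of characteristic different from two and three.
-/

open Module TensorProduct Topology

set_option linter.unusedSectionVars false

namespace Vale.Agent.P011.H732D.Six

open Vale.Agent.P011.H738 (Place SUA Anis IsGlobalFunctionField)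
open Vale.Agent.P011.H732F (GK HA IsDiagonal IsOpenPreimage Adiv)
open Vale.Agent.P011.H305 (SetF SolvAtF)
open Vale.Agent.P011.H271 (GFF gff_of_isGlobal)

/-- The symmetric square roots, in the letters of the doubling step. -/
theorem exTF {m : ℕ} (hm : 0 < m) : H974.R8.ExTF m := by
  intro k K D _ _ _ _ _ _ _ _ _ _ d s hS hdeg
  exact H511.SX.exists_tF hS hm hdeg

/-- **The solvable step in degree six.** -/
theorem solv_six {k K D : Type} [Field k] [GFF k] [Field K] [StarRing K] [DivisionRing D]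
    [StarRing D] [Algebra k K] [Algebra k D] [Algebra K D] [IsScalarTower k K D]
    [StarModule K D] {d : kˣ} {s : K} (h3 : (3 : k) ≠ 0) (hS : SetF k K D d s)
    (hdeg : finrank K D = 6 ^ 2) {Ω : Type} [Field Ω] [Algebra K Ω]
    (f : D →ₐ[K] Matrix (Fin 6) (Fin 6) Ω) {N : ℕ} (B : Basis (Fin N) k D) :
    SolvAtF k K f B := by
  have hdeg' : finrank K D = (2 * 3) ^ 2 := hdeg
  obtain ⟨a, t, ht, ha, had⟩ := exTF (m := 3) (by norm_num) k K D d s hS hdeg'
  refine H974.R8.solvAtF_of_red (H974.R8.isGlobal_of_gff k) hS hdeg (by norm_num) f B a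
    fun Q H hQ hH hQH hi hN hp hc ⟨T, ε, hε, hQ1⟩ S₀ => ?_
  exact H974.R8.mem_of_ab2 (m := 3) hS ht ha had (by norm_num) hdeg' f B Q hε hQ1
    (H872.FF.abAt_sixF h3 hS hdeg' ht ha had f B Q hi hε hQ1) S₀

variable {k K A Ω : Type} [Field k] [Field K] [StarRing K] [Ring A] [StarRing A]
  [Algebra k K] [Algebra k A] [Algebra K A] [IsScalarTower k K A] [StarModule K A] {n : ℕ}
  [Field Ω] [Algebra K Ω]

/-- **The conjecture for all anisotropic outer forms of degree six** over a global function
field of characteristic different from two and three: all subgroups of finite index. -/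
theorem six_allU (hk : IsGlobalFunctionField k) (hA : Anis k K A 6) (h2 : (2 : k) ≠ 0)
    (h3 : (3 : k) ≠ 0) (f : A →ₐ[K] Matrix (Fin 6) (Fin 6) Ω) :
    ∃ δ : GK f →* HA A 6 (Adiv k K A), IsDiagonal δ ∧ DenseRange δ ∧
      ∀ M : Subgroup (GK f), M.index ≠ 0 → IsOpenPreimage δ M := by
  by_cases hdiv : ∃ x : A, x ≠ 0 ∧ ¬ IsUnit x
  · exact H519.R2.div_all hk hA (by norm_num) h2 hdiv f
  have hgff : GFF k := gff_of_isGlobal hk
  have hsim := hA.simple
  let iD : DivisionRing A := DivisionRing.ofIsUnitOrEqZero fun x => by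
    by_cases hx : x = 0
    · exact Or.inr hx
    · exact Or.inl (by
        by_contra h
        exact hdiv ⟨x, hx, h⟩)
  have hfk : FiniteDimensional k K := (H519.quad hA.fixed hA.star_ne).1
  have hfA : FiniteDimensional K A := FiniteDimensional.of_finrank_pos (by
    rw [hA.finrank_eq]
    positivity)
  have hfkA : FiniteDimensional k A := Module.Finite.trans K A
  obtain ⟨d, s, hS⟩ := H305.exists_setF (k := k) (K := K) (D := A) hA (by norm_num) h2
  exact H305.all_of_solvF hk hA (by norm_num) f (finBasis k A)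
    (solv_six h3 hS hA.finrank_eq f (finBasis k A))

/-- **The conjecture** in degrees three and six and for the algebras with zero divisors. -/
theorem small_all6 (hk : IsGlobalFunctionField k) (hA : Anis k K A n) (hn : 3 ≤ n)
    (h2 : (2 : k) ≠ 0) (h : n = 3 ∨ (n = 6 ∧ (3 : k) ≠ 0) ∨ ∃ x : A, x ≠ 0 ∧ ¬ IsUnit x)
    (f : A →ₐ[K] Matrix (Fin n) (Fin n) Ω) :
    ∃ δ : GK f →* HA A n (Adiv k K A), IsDiagonal δ ∧ DenseRange δ ∧
      ∀ M : Subgroup (GK f), M.index ≠ 0 → IsOpenPreimage δ M ∧
        ((∃ x : A, x ≠ 0 ∧ ¬ IsUnit x) → M = ⊤) := by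
  have key : ∃ δ : GK f →* HA A n (Adiv k K A), IsDiagonal δ ∧ DenseRange δ ∧
      ∀ M : Subgroup (GK f), M.index ≠ 0 → IsOpenPreimage δ M := by
    rcases h with rfl | ⟨rfl, h3⟩ | hdiv
    · exact H519.R2.three_allU hk hA h2 f
    · exact six_allU hk hA h2 h3 f
    · exact H519.R2.div_all hk hA hn h2 hdiv f
  obtain ⟨δ, h1, h2', h3⟩ := key
  refine ⟨δ, h1, h2', fun M hM => ⟨h3 M hM, fun hdiv => ?_⟩⟩
  exact H519.R2.eq_top_of_open (fun v hv => H518.R8.adiv_empty hA (by omega) hdiv v hv) (h3 M hM)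

end Vale.Agent.P011.H732D.Six
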