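import Vale.Agent.P011.H519.FFGen
import Vale.Agent.P011.H974.AllF

/-!
# Function fields of characteristic not two: the degrees `2 ^ e` and `3 * 2 ^ e`
-/

open Module TensorProduct Topology

set_option linter.unusedSectionVars false

namespace Vale.Agent.P011.H732D.Small

open Vale.Agent.P011.H738 (Place SUA Anis IsGlobalFunctionField)
open Vale.Agent.P011.H732F (GK HA IsDiagonal IsOpenPreimage Adiv)
open Vale.Agent.P011.H974.R8 (SolvF solvF_two_pow solvF_three_mul)

/-- **The solvable step** in the degrees `2 ^ e` and `3 * 2 ^ e`. -/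
theorem solvF_small {n : ℕ} (hn : 3 ≤ n) (h : (∃ e, n = 2 ^ e) ∨ ∃ e, n = 3 * 2 ^ e) :
    SolvF n := by
  rcases h with ⟨e, rfl⟩ | ⟨e, rfl⟩
  · refine solvF_two_pow ?_
    by_contra hcon
    have : e = 0 ∨ e = 1 := by omega
    rcases this with rfl | rfl <;> norm_num at hn
  · exact solvF_three_mul e

variable {k K A Ω : Type} [Field k] [Field K] [StarRing K] [Ring A] [StarRing A]
  [Algebra k K] [Algebra k A] [Algebra K A] [IsScalarTower k K A] [StarModule K A] {n : ℕ}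
  [Field Ω] [Algebra K Ω]

/-- **The conjecture** in the degrees `2 ^ e` and `3 * 2 ^ e` and for the algebras with zero
divisors. -/
theorem small_pow (hk : IsGlobalFunctionField k) (hA : Anis k K A n) (hn : 3 ≤ n)
    (h2 : (2 : k) ≠ 0)
    (h : (∃ e, n = 2 ^ e) ∨ (∃ e, n = 3 * 2 ^ e) ∨ ∃ x : A, x ≠ 0 ∧ ¬ IsUnit x)
    (f : A →ₐ[K] Matrix (Fin n) (Fin n) Ω) :
    ∃ δ : GK f →* HA A n (Adiv k K A), IsDiagonal δ ∧ DenseRange δ ∧
      ∀ M : Subgroup (GK f), M.index ≠ 0 → IsOpenPreimage δ M ∧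
        ((∃ x : A, x ≠ 0 ∧ ¬ IsUnit x) → M = ⊤) := by
  by_cases hdiv : ∃ x : A, x ≠ 0 ∧ ¬ IsUnit x
  · exact H519.R2.small_all hk hA hn h2 (Or.inr hdiv) f
  · have h' : (∃ e, n = 2 ^ e) ∨ ∃ e, n = 3 * 2 ^ e := by
      rcases h with h | h | h
      · exact Or.inl h
      · exact Or.inr h
      · exact absurd h hdiv
    obtain ⟨δ, h1, h3, h4⟩ := H519.R2.divn_all hk hA hn h2 (solvF_small hn h')
      (fun x hx => by
        by_contra hu
        exact hdiv ⟨x, hx, hu⟩) f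
    exact ⟨δ, h1, h3, fun M hM => ⟨h4 M hM, fun h => absurd h hdiv⟩⟩

end Vale.Agent.P011.H732D.Small
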